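import Vale.Agent.P344.Global

/-! Solving the recursion for tensor powers. -/

namespace Vale.Agent.P344

open Finset Matrix

theorem card_Tr18 : Fintype.card (Tr 18) = 816 := by
  rw [Fintype.card_finset_len, Fintype.card_fin]; decide

theorem ratio_aux {h v : ℕ} (hh : h = 18) (hv : Fintype.card (Tr h) = v) (hv' : v = 816) :
    0 < Fintype.card (Wt h) ∧ (netR h : ℝ) / Fintype.card (Wt h) ≤ 324 - 1 / 8000 := by
  have hN : Fintype.card (Nb h) ≤ v * v := by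
    refine (Fintype.card_subtype_le _).trans ?_
    rw [Fintype.card_prod, hv]
  have h1 := netR_eq (h := h) (by omega)
  have hW : Fintype.card (Wt h) = 2 * v ^ 2 + 2 * v * Fintype.card (Nb h) := by
    simp only [Fintype.card_sum, Fintype.card_prod, hv]; ring
  rw [hv] at h1
  generalize Fintype.card (Wt h) = W at *
  generalize Fintype.card (Nb h) = n at *
  generalize netR h = R at *
  subst hh hv'
  have h2 : (R : ℝ) + 816 ^ 2 = W * 18 ^ 2 + 2 * 816 * 18 ^ 2 := by exact_mod_cast h1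
  have h3 : (W : ℝ) ≤ 2 * 816 ^ 2 + 2 * 816 * (816 * 816) := by
    rw [hW]; push_cast
    have : (n : ℝ) ≤ 816 * 816 := by exact_mod_cast hN
    linarith
  have h4 : 0 < W := by omega
  have h5 : (0 : ℝ) < W := by exact_mod_cast h4
  refine ⟨h4, ?_⟩
  rw [div_le_iff₀ h5]
  linarith

theorem rpow_bound : (324 - 1 / 9000 : ℝ) < 324 ^ (1 - 5 / 10 ^ 8 : ℝ) := by
  have h1 : Real.log 324 ≤ 6.3 := by
    have : Real.log 324 ≤ Real.log (2 ^ 9) := Real.log_le_log (by norm_num) (by norm_num)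
    rw [Real.log_pow] at this
    have h2 := Real.log_two_lt_d9
    push_cast at this
    linarith
  rw [sub_eq_add_neg 1, Real.rpow_add (by norm_num), Real.rpow_one,
    Real.rpow_def_of_pos (by norm_num)]
  have := Real.add_one_le_exp (Real.log 324 * -(5 / 10 ^ 8))
  nlinarith

theorem final_ineq {nb R K u c N t A θ ρ fs ks tf T : ℝ} (hu : 0 ≤ u) (hc0 : 0 ≤ c)
    (htf : 0 ≤ tf) (hK : 0 ≤ K) (ht : 0 ≤ t) (hA : 0 ≤ A) (hρ0 : 0 ≤ ρ)
    (hnbR : nb * R ≤ ρ * t) (hnb2 : nb ≤ 2 * t) (hc : c ≤ A * fs * tf) (e3 : N = u * tf)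
    (hρ : ρ * fs ≤ θ * ks) (hAθ : 2 * K + 2 * T = A * (1 - θ)) (hw3 : t ≤ T) (hk1 : 1 ≤ ks) :
    nb * (R * (u * c) + K * N) + N * (t * (2 * t)) ≤ A * ks * (t * N) := by
  have hN : 0 ≤ N := e3 ▸ mul_nonneg hu htf
  have a1 : nb * R * (u * c) ≤ ρ * t * (u * (A * fs * tf)) :=
    mul_le_mul hnbR (by gcongr) (by positivity) (by positivity)
  have a2 : ρ * t * (u * (A * fs * tf)) = A * (ρ * fs) * (t * N) := by rw [e3]; ring
  have a3 : A * (ρ * fs) * (t * N) ≤ A * (θ * ks) * (t * N) := by gcongr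
  have a4 : nb * (K * N) ≤ 2 * t * (K * N) := by gcongr
  have a5 : N * (t * (2 * t)) ≤ N * (t * (2 * T)) := by gcongr
  have a6 : (2 * K + 2 * T) * (t * N) ≤ (2 * K + 2 * T) * ks * (t * N) := by
    have : 0 ≤ 2 * K + 2 * T := by linarith
    gcongr
    exact le_mul_of_one_le_right this hk1
  have a7 : (2 * K + 2 * T) * ks * (t * N) = A * ks * (t * N) - A * (θ * ks) * (t * N) := by
    rw [hAθ]; ring
  nlinarith

theorem solve_rec (P : ℕ → ℕ → Prop) (R' K' W : ℕ) (hW : 0 < W)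
    (hR : (R' : ℝ) / W ≤ 324 - 1 / 8000) (h0 : ∀ k, P k (2 ^ k * (2 * 2 ^ k)))
    (hs' : ∀ f c w, P f c → P (w + 324 * f) ((2 ^ w / W + 1) *
      (R' * (2 ^ (323 * f) * c) + K' * 2 ^ (324 * f)) + 2 ^ (324 * f) * (2 ^ w * (2 * 2 ^ w)))) :
    ∃ A : ℝ, 0 ≤ A ∧ ∀ k : ℕ, ∃ c : ℕ, P k c ∧
      (c : ℝ) ≤ A * ((k : ℝ) + 1) ^ (1 - 5 / 10 ^ 8 : ℝ) * 2 ^ k := by
  have hrb := rpow_bound
  have hσ0 : (0 : ℝ) ≤ 1 - 5 / 10 ^ 8 := by norm_num
  generalize (1 - 5 / 10 ^ 8 : ℝ) = σ at *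
  obtain ⟨w, hw⟩ : ∃ w : ℕ, (R' : ℝ) * 72000 < 2 ^ w := pow_unbounded_of_one_lt _ one_lt_two
  have hρd : (324 - 1 / 8000 : ℝ) + 1 / 72000 = 324 - 1 / 9000 := by norm_num
  have hρ0 : (0 : ℝ) ≤ 324 - 1 / 9000 := by norm_num
  generalize (324 - 1 / 9000 : ℝ) = ρ at *
  have hm : (0 : ℝ) < 324 ^ σ := by positivity
  obtain ⟨θ, hθd⟩ : ∃ θ, θ = ρ / 324 ^ σ := ⟨_, rfl⟩
  have hθ : θ < 1 := hθd ▸ (div_lt_one hm).2 hrb
  have hθ0 : 0 ≤ θ := by rw [hθd]; positivity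
  obtain ⟨T, hT⟩ : ∃ T : ℝ, T = 2 ^ (w + 324) := ⟨_, rfl⟩
  have hT1 : 1 ≤ T := hT ▸ one_le_pow₀ one_le_two
  have hK : (0 : ℝ) ≤ K' := by positivity
  obtain ⟨A, hA⟩ : ∃ A : ℝ, A = (2 * K' + 2 * T) / (1 - θ) := ⟨_, rfl⟩
  have hAθ : 2 * K' + 2 * T = A * (1 - θ) := by
    rw [hA]; field_simp [show 1 - θ ≠ 0 by linarith]
  have hA0 : 0 ≤ A := by rw [hA]; apply div_nonneg <;> linarith
  have hAK : 2 * K' + 2 * T ≤ A := by nlinarith
  have key : ∀ k : ℕ, 1 ≤ k → ∃ c : ℕ, P k c ∧ (c : ℝ) ≤ A * (k : ℝ) ^ σ * 2 ^ k := by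
    intro k
    induction k using Nat.strong_induction_on with | _ k ih => ?_
    intro hk
    have hk1 : (1 : ℝ) ≤ (k : ℝ) ^ σ := Real.one_le_rpow (by exact_mod_cast hk) hσ0
    by_cases hs : k < w + 324
    · refine ⟨_, h0 k, ?_⟩
      push_cast
      rw [mul_comm]
      have : (2 : ℝ) ^ k ≤ T := hT ▸ pow_le_pow_right₀ one_le_two hs.le
      exact mul_le_mul_of_nonneg_right (by nlinarith) (by positivity)
    obtain ⟨f, hf⟩ : ∃ f, f = (k - w) / 324 := ⟨_, rfl⟩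
    obtain ⟨w', hw'⟩ : ∃ w', w' = w + (k - w) % 324 := ⟨_, rfl⟩
    have hkf : k = w' + 324 * f := by omega
    have hf1 : 1 ≤ f := by omega
    obtain ⟨c, hc, hc'⟩ := ih f (by omega) hf1
    have h1 := hs' f c w' hc
    rw [← hkf] at h1
    refine ⟨_, h1, ?_⟩
    have hfk : (f : ℝ) ^ σ * 324 ^ σ ≤ (k : ℝ) ^ σ := by
      rw [← Real.mul_rpow (by positivity) (by norm_num)]
      refine Real.rpow_le_rpow (by positivity) ?_ hσ0
      exact_mod_cast (by omega : f * 324 ≤ k)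
    have hW1 : (1 : ℝ) ≤ W := by exact_mod_cast hW
    have hw2 : (2 : ℝ) ^ w ≤ 2 ^ w' := pow_le_pow_right₀ one_le_two (by omega)
    have hw3 : (2 : ℝ) ^ w' ≤ T := hT ▸ pow_le_pow_right₀ one_le_two (by omega)
    have hw1 : (1 : ℝ) ≤ 2 ^ w' := one_le_pow₀ one_le_two
    have hnb : ((2 ^ w' / W + 1 : ℕ) : ℝ) ≤ 2 ^ w' / W + 1 := by
      have := @Nat.cast_div_le ℝ _ _ _ (2 ^ w') W
      push_cast at this ⊢; linarith
    have hnbR : ((2 ^ w' / W + 1 : ℕ) : ℝ) * R' ≤ ρ * 2 ^ w' := by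
      calc _ ≤ (2 ^ w' / W + 1) * (R' : ℝ) := by gcongr
        _ = 2 ^ w' * (R' / W) + R' := by ring
        _ ≤ 2 ^ w' * (324 - 1 / 8000) + 2 ^ w' / 72000 := by
            gcongr; rw [le_div_iff₀ (by norm_num)]; linarith
        _ = _ := by rw [← hρd]; ring
    have hnb2 : ((2 ^ w' / W + 1 : ℕ) : ℝ) ≤ 2 * 2 ^ w' := by
      have : (2 : ℝ) ^ w' / W ≤ 2 ^ w' := div_le_self (by positivity) hW1
      linarith
    have e2 : (2 : ℝ) ^ k = 2 ^ w' * 2 ^ (324 * f) := by rw [← pow_add, ← hkf]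
    have e3 : (2 : ℝ) ^ (324 * f) = 2 ^ (323 * f) * 2 ^ f := by
      rw [← pow_add]; congr 1; omega
    have hρ : ρ * (f : ℝ) ^ σ ≤ θ * (k : ℝ) ^ σ := by
      calc ρ * (f : ℝ) ^ σ = θ * ((f : ℝ) ^ σ * 324 ^ σ) := by rw [hθd]; field_simp
        _ ≤ _ := by gcongr
    generalize (2 ^ w' / W + 1 : ℕ) = nb at *
    push_cast
    rw [e2]
    exact final_ineq (by positivity) (by positivity) (by positivity) hK (by positivity) hA0 hρ0
      hnbR hnb2 hc' e3 hρ hAθ hw3 hk1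
  refine ⟨A, hA0, fun k => ?_⟩
  rcases Nat.eq_zero_or_pos k with rfl | hk
  · refine ⟨_, h0 0, ?_⟩
    simp
    linarith
  · obtain ⟨c, hc, hc'⟩ := key k hk
    refine ⟨c, hc, hc'.trans ?_⟩
    gcongr
    linarith

theorem exists_CK_aux {h : ℕ} (hh : h = 18) : ∃ A : ℝ, 0 ≤ A ∧ ∀ k : ℕ, ∃ c : ℕ,
    MC (CK (Fin k)) c ∧ (c : ℝ) ≤ A * ((k : ℝ) + 1) ^ (1 - 5 / 10 ^ 8 : ℝ) * 2 ^ k := by
  obtain ⟨h1, h2⟩ := ratio_aux hh rfl (hh ▸ card_Tr18)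
  refine solve_rec (fun k c => MC (CK (Fin k)) c) (netR h) (netK h) _ h1 h2 (fun k => ?_)
    fun f c w hc => ?_
  · simpa using MC.trivial (CK (Fin k))
  · have := rec_step (h := h) (by omega) hc w
    have e : h ^ 2 = 324 := by rw [hh]; norm_num
    rw [e] at this
    exact this

theorem exists_CK_bound : ∃ A : ℝ, 0 ≤ A ∧ ∀ k : ℕ, ∃ c : ℕ,
    MC (CK (Fin k)) c ∧ (c : ℝ) ≤ A * ((k : ℝ) + 1) ^ (1 - 5 / 10 ^ 8 : ℝ) * 2 ^ k :=
  exists_CK_aux rfl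

end Vale.Agent.P344
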