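import Vale.Agent.P344.Defs

/-! Abstract cost calculus for linear circuits. -/

namespace Vale.Agent.P344

open Finset

variable {V : Type} [AddCommGroup V] [Module ℂ V]

/-- One gate applied to available values. -/
def Step (S : Set V) (v : V) : Prop :=
  ∃ u ∈ insert 0 S, ∃ w ∈ insert 0 S, v = u + w ∨ v = u - w ∨ ∃ c : ℂ, v = c • u

/-- From the values `S` the values `Q` can be computed with at most `c` gates. -/
def Can (S : Set V) : ℕ → Set V → Prop
  | 0, Q => Q ⊆ insert 0 S
  | c + 1, Q => Q ⊆ insert 0 S ∨ ∃ v, Step S v ∧ Can (insert v S) c Q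

theorem Can.of_subset {S Q : Set V} (c : ℕ) (h : Q ⊆ insert 0 S) : Can S c Q := by
  cases c with
  | zero => exact h
  | succ c => exact Or.inl h

theorem Can.of_subset' {S Q : Set V} (h : Q ⊆ S) : Can S 0 Q :=
  h.trans (Set.subset_insert _ _)

theorem Step.mono {S S' : Set V} {v : V} (h : Step S v) (hS : S ⊆ insert 0 S') : Step S' v := by
  obtain ⟨u, hu, w, hw, h⟩ := h
  have key : insert 0 S ⊆ insert 0 S' := Set.insert_subset (Set.mem_insert _ _) hS
  exact ⟨u, key hu, w, key hw, h⟩

theorem Can.mono {c : ℕ} : ∀ {S S' Q Q' : Set V} {c' : ℕ}, Can S c Q → S ⊆ insert 0 S' →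
    c ≤ c' → Q' ⊆ Q → Can S' c' Q' := by
  induction c with
  | zero =>
    intro S S' Q Q' c' h hS _ hQ
    exact Can.of_subset _ (hQ.trans (Set.Subset.trans h
      (Set.insert_subset (Set.mem_insert _ _) hS)))
  | succ c ih =>
    intro S S' Q Q' c' h hS hc hQ
    rcases h with h | ⟨v, hv, h⟩
    · exact Can.of_subset _ (hQ.trans (h.trans (Set.insert_subset (Set.mem_insert _ _) hS)))
    · obtain ⟨c', rfl⟩ : ∃ d, c' = d + 1 := ⟨c' - 1, by omega⟩
      refine Or.inr ⟨v, hv.mono hS, ih h ?_ (by omega) hQ⟩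
      rw [Set.insert_comm]
      exact Set.insert_subset_insert hS

theorem Can.monoS {c : ℕ} {S S' Q : Set V} (h : Can S c Q) (hS : S ⊆ S') : Can S' c Q :=
  h.mono (hS.trans (Set.subset_insert _ _)) le_rfl le_rfl

theorem Can.monoC {c c' : ℕ} {S Q : Set V} (h : Can S c Q) (hc : c ≤ c') : Can S c' Q :=
  h.mono (Set.subset_insert _ _) hc le_rfl

theorem Can.monoQ {c : ℕ} {S Q Q' : Set V} (h : Can S c Q) (hQ : Q' ⊆ Q) : Can S c Q' :=
  h.mono (Set.subset_insert _ _) le_rfl hQ

theorem Can.trans {c : ℕ} : ∀ {S Q R : Set V} {c' : ℕ}, Can S c Q → Can (S ∪ Q) c' R →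
    Can S (c + c') R := by
  induction c with
  | zero =>
    intro S Q R c' h h'
    exact h'.mono (Set.union_subset (Set.subset_insert _ _) h) (by omega) le_rfl
  | succ c ih =>
    intro S Q R c' h h'
    rcases h with h | ⟨v, hv, h⟩
    · exact h'.mono (Set.union_subset (Set.subset_insert _ _) h) (by omega) le_rfl
    · rw [show c + 1 + c' = (c + c') + 1 by omega]
      exact Or.inr ⟨v, hv, ih h (h'.monoS (Set.union_subset_union_left _ (Set.subset_insert _ _)))⟩

theorem Can.keep {c : ℕ} : ∀ {S Q : Set V}, Can S c Q → Can S c (S ∪ Q) := by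
  induction c with
  | zero => intro S Q h; exact Set.union_subset (Set.subset_insert _ _) h
  | succ c ih =>
    intro S Q h
    rcases h with h | ⟨v, hv, h⟩
    · exact Or.inl (Set.union_subset (Set.subset_insert _ _) h)
    · exact Or.inr ⟨v, hv, (ih h).monoQ (Set.union_subset_union_left _ (Set.subset_insert _ _))⟩

theorem Can.trans' {c c' : ℕ} {S Q R : Set V} (h : Can S c Q) (h' : Can Q c' R) :
    Can S (c + c') R := h.trans (h'.monoS Set.subset_union_right)

theorem Can.union {c c' : ℕ} {S Q R : Set V} (h : Can S c Q) (h' : Can S c' R) :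
    Can S (c + c') (Q ∪ R) :=
  h.trans ((h'.monoS Set.subset_union_left).keep.monoQ
    (Set.union_subset_union_left _ Set.subset_union_right))

theorem Can.biUnion {ι : Type} (s : Finset ι) {S : Set V} {Q : ι → Set V} {c : ι → ℕ}
    (h : ∀ i ∈ s, Can S (c i) (Q i)) : Can S (∑ i ∈ s, c i) (⋃ i ∈ s, Q i) := by
  classical
  induction s using Finset.induction_on with
  | empty => exact Can.of_subset' (by simp)
  | insert a s ha ih =>
    rw [Finset.sum_insert ha, Finset.set_biUnion_insert]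
    exact (h a (mem_insert_self _ _)).union (ih fun i hi => h i (mem_insert_of_mem hi))

theorem Can.iUnion {ι : Type} [Fintype ι] {S : Set V} {Q : ι → Set V} {c : ℕ}
    (h : ∀ i, Can S c (Q i)) : Can S (Fintype.card ι * c) (⋃ i, Q i) := by
  simpa using Can.biUnion (univ : Finset ι) (c := fun _ => c) fun i _ => h i

theorem Can.range {ι : Type} [Fintype ι] {S : Set V} {u : ι → V} {c : ℕ}
    (h : ∀ i, Can S c {u i}) : Can S (Fintype.card ι * c) (Set.range u) := by
  simpa using Can.iUnion h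

theorem Can.step {S : Set V} {v : V} (h : Step S v) : Can S 1 {v} :=
  Or.inr ⟨v, h, Can.of_subset' (by simp)⟩

theorem Can.smul {S : Set V} {v : V} (c : ℂ) (h : v ∈ S) : Can S 1 {c • v} :=
  Can.step ⟨v, Or.inr h, v, Or.inr h, Or.inr (Or.inr ⟨c, rfl⟩)⟩

theorem Can.sum {ι : Type} (s : Finset ι) {S : Set V} (c : ι → ℂ) (u : ι → V)
    (h : ∀ i ∈ s, u i ∈ S) : Can S (2 * s.card) {∑ i ∈ s, c i • u i} := by
  classical
  induction s using Finset.induction_on with
  | empty => exact Can.of_subset _ (by simp)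
  | insert a s ha ih =>
    rw [Finset.sum_insert ha, Finset.card_insert_of_notMem ha]
    have h1 := (Can.smul (c a) (h a (mem_insert_self _ _))).union
      (ih fun i hi => h i (mem_insert_of_mem hi))
    refine (h1.trans (c' := 1) (Can.step ⟨c a • u a, by simp, ∑ i ∈ s, c i • u i, by simp,
      Or.inl rfl⟩)).monoC (by omega)

theorem Can.map {W : Type} [AddCommGroup W] [Module ℂ W] (f : V →ₗ[ℂ] W) {c : ℕ} :
    ∀ {S Q : Set V}, Can S c Q → Can (f '' S) c (f '' Q) := by
  have key : ∀ {S Q : Set V}, Q ⊆ insert 0 S → f '' Q ⊆ insert 0 (f '' S) := by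
    intro S Q h
    refine (Set.image_mono h).trans ?_
    rw [Set.image_insert_eq, map_zero]
  induction c with
  | zero => intro S Q h; exact key h
  | succ c ih =>
    intro S Q h
    rcases h with h | ⟨v, ⟨u, hu, w, hw, hv⟩, h⟩
    · exact Or.inl (key h)
    · refine Or.inr ⟨f v, ⟨f u, key le_rfl ⟨u, hu, rfl⟩, f w, key le_rfl ⟨w, hw, rfl⟩, ?_⟩, ?_⟩
      · rcases hv with rfl | rfl | ⟨c, rfl⟩
        · exact Or.inl (map_add _ _ _)
        · exact Or.inr (Or.inl (map_sub _ _ _))
        · exact Or.inr (Or.inr ⟨c, map_smul _ _ _⟩)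
      · rw [← Set.image_insert_eq]; exact ih h

/-- A matrix acting on a vector with entries in a module. -/
def act {α β : Type} [Fintype β] (M : Matrix α β ℂ) (x : β → V) : α → V :=
  fun i => ∑ j, M i j • x j

theorem act_mul {α β γ : Type} [Fintype β] [Fintype γ] (M : Matrix α β ℂ) (N : Matrix β γ ℂ)
    (x : γ → V) : act (M * N) x = act M (act N x) := by
  funext i
  simp only [act, Matrix.mul_apply, Finset.sum_smul, Finset.smul_sum, mul_smul]
  exact Finset.sum_comm

theorem act_one {α : Type} [Fintype α] [DecidableEq α] (x : α → V) : act 1 x = x := by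
  funext i
  simp [act, Matrix.one_apply]

/-- The linear map `M` can be computed with at most `c` gates. -/
def MC {α β : Type} [Fintype β] (M : Matrix α β ℂ) (c : ℕ) : Prop :=
  ∀ (W : Type) [AddCommGroup W] [Module ℂ W] (x : β → W),
    Can (Set.range x) c (Set.range (act M x))

theorem MC.mul {α β γ : Type} [Fintype β] [Fintype γ] {M : Matrix α β ℂ} {N : Matrix β γ ℂ}
    {c c' : ℕ} (h : MC M c) (h' : MC N c') : MC (M * N) (c + c') := by
  intro W _ _ x
  rw [act_mul, add_comm]
  exact (h' W x).trans' (h W _)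

theorem MC.monoC {α β : Type} [Fintype β] {M : Matrix α β ℂ} {c c' : ℕ} (h : MC M c)
    (hc : c ≤ c') : MC M c' := fun W _ _ x => (h W x).monoC hc

theorem MC.trivial {α β : Type} [Fintype α] [Fintype β] (M : Matrix α β ℂ) :
    MC M (Fintype.card α * (2 * Fintype.card β)) := fun _ _ _ x =>
  Can.range fun i => Can.sum univ (M i) x fun j _ => ⟨j, rfl⟩

/-- A matrix with at most one nonzero entry in every row. -/
def IsMon {α β : Type} [DecidableEq β] (M : Matrix α β ℂ) : Prop :=
  ∃ (d : α → ℂ) (σ : α → β), ∀ i j, M i j = if j = σ i then d i else 0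

theorem IsMon.mc {α β : Type} [Fintype α] [Fintype β] [DecidableEq β] {M : Matrix α β ℂ}
    (h : IsMon M) : MC M (Fintype.card α) := by
  obtain ⟨d, σ, h⟩ := h
  intro W _ _ x
  have := Can.range (S := Set.range x) (u := act M x) (c := 1) fun i => by
    have e : act M x i = d i • x (σ i) := by simp [act, h]
    rw [e]; exact Can.smul _ ⟨_, rfl⟩
  simpa using this

theorem MC.submatrix {α β α' β' : Type} [Fintype β] [Fintype β'] {M : Matrix α β ℂ} {c : ℕ}
    (h : MC M c) (a : α' → α) (e : β' ≃ β) : MC (M.submatrix a e) c := by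
  intro W _ _ x
  refine (h W (x ∘ e.symm)).mono ?_ le_rfl ?_
  · rintro _ ⟨i, rfl⟩; exact Or.inr ⟨_, rfl⟩
  · rintro _ ⟨i, rfl⟩
    refine ⟨a i, ?_⟩
    simp only [act, Matrix.submatrix_apply, Function.comp]
    rw [← Equiv.sum_comp e]; simp

/-! Extraction of a gate list. -/

theorem run_prefix (p : List Gate) : ∀ v : List ℂ, ∃ t, run v p = v ++ t := by
  induction p with
  | nil => intro v; exact ⟨[], by simp [run]⟩
  | cons g p ih =>
    intro v
    obtain ⟨t, ht⟩ := ih (v ++ [g.value v])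
    exact ⟨g.value v :: t, by simp [run, ht]⟩

theorem exists_prog {X : Type} {c : ℕ} : ∀ (l : List (X → ℂ)) (S Q : Set (X → ℂ)),
    (∀ u ∈ insert 0 S, ∃ i < l.length, l.getD i 0 = u) → Can S c Q →
    ∃ p : List Gate, p.length ≤ c ∧ ∀ u ∈ Q, ∃ i, ∀ x,
      (run (l.map fun f => f x) p).getD i 0 = u x := by
  have hget : ∀ (l : List (X → ℂ)) (i : ℕ) (x : X),
      (l.map fun f => f x).getD i 0 = l.getD i 0 x := by
    intro l i x
    simp only [List.getD_eq_getElem?_getD, List.getElem?_map]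
    cases l[i]? <;> simp
  have base : ∀ (c : ℕ) (l : List (X → ℂ)) (S Q : Set (X → ℂ)),
      (∀ u ∈ insert 0 S, ∃ i < l.length, l.getD i 0 = u) → Q ⊆ insert 0 S →
      ∃ p : List Gate, p.length ≤ c ∧ ∀ u ∈ Q, ∃ i, ∀ x,
        (run (l.map fun f => f x) p).getD i 0 = u x := by
    intro c l S Q hl h
    refine ⟨[], by simp, fun u hu => ?_⟩
    obtain ⟨i, _, hi⟩ := hl u (h hu)
    exact ⟨i, fun x => by rw [run, hget, hi]⟩
  induction c with
  | zero => intro l S Q hl h; exact base 0 l S Q hl h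
  | succ c ih =>
    intro l S Q hl h
    rcases h with h | ⟨v, ⟨u, hu, w, hw, hv⟩, h⟩
    · exact base _ l S Q hl h
    obtain ⟨i, _, hi⟩ := hl u hu
    obtain ⟨j, _, hj⟩ := hl w hw
    obtain ⟨g, hg⟩ : ∃ g : Gate, ∀ x, g.value (l.map fun f => f x) = v x := by
      rcases hv with rfl | rfl | ⟨c, rfl⟩
      · exact ⟨.add i j, fun x => by simp only [Gate.value, hget, hi, hj, Pi.add_apply]⟩
      · exact ⟨.sub i j, fun x => by simp only [Gate.value, hget, hi, hj, Pi.sub_apply]⟩
      · exact ⟨.smul c i, fun x => by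
          simp only [Gate.value, hget, hi, Pi.smul_apply, smul_eq_mul]⟩
    obtain ⟨p, hp, hq⟩ := ih (l ++ [v]) (insert v S) Q (by
      intro t ht
      rw [Set.insert_comm] at ht
      rcases ht with rfl | ht
      · exact ⟨l.length, by simp, by simp⟩
      · obtain ⟨k, hk, hk'⟩ := hl t ht
        refine ⟨k, by simp; omega, ?_⟩
        rw [← hk', List.getD_append _ _ _ _ hk]) h
    refine ⟨g :: p, by simp; omega, fun t ht => ?_⟩
    obtain ⟨k, hk⟩ := hq t ht
    refine ⟨k, fun x => ?_⟩
    rw [run, hg, ← hk x]; simp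

theorem L_le {n c : ℕ}
    (h : MC (Matrix.of fun j k : Fin n =>
      Complex.exp (2 * Real.pi * Complex.I / n) ^ ((j : ℕ) * (k : ℕ))) c) :
    ∃ (p : List Gate) (out : Fin n → ℕ), ComputesDFT n p out ∧ p.length ≤ c := by
  have h1 := h ((Fin n → ℂ) → ℂ) (fun k x => x k)
  obtain ⟨p, hp, hq⟩ := exists_prog (0 :: List.ofFn fun k (x : Fin n → ℂ) => x k) _ _ (by
    rintro u (rfl | ⟨k, rfl⟩)
    · exact ⟨0, by simp, by simp⟩
    · exact ⟨k + 1, by simp, by simp⟩) h1
  choose out hout using fun j => hq _ ⟨j, rfl⟩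
  refine ⟨p, out, fun x j => ?_, hp⟩
  have := hout j x
  simp only [List.map_cons, List.map_ofFn, Pi.zero_apply] at this
  rw [show (fun f : (Fin n → ℂ) → ℂ => f x) ∘ (fun k (x : Fin n → ℂ) => x k) = x from rfl] at this
  rw [this]
  simp [act]

end Vale.Agent.P344
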