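import Mathlib

/-! Definitions used in the statement for P344 (linear circuits for the DFT). -/

namespace Vale.Agent.P344

/-- A gate of a linear circuit.  The natural numbers are positions in the list of values
computed so far. -/
inductive Gate where
  | add (i j : ℕ)
  | sub (i j : ℕ)
  | smul (c : ℂ) (i : ℕ)

/-- The value of a gate, given the list of values computed so far (a position outside the list
reads the constant `0`). -/
def Gate.value (v : List ℂ) : Gate → ℂ
  | .add i j => v.getD i 0 + v.getD j 0
  | .sub i j => v.getD i 0 - v.getD j 0
  | .smul c i => c * v.getD i 0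

/-- Run the gates in order; every gate appends its value to the list of values. -/
def run (v : List ℂ) : List Gate → List ℂ
  | [] => v
  | g :: p => run (v ++ [g.value v]) p

/-- The circuit with gate list `p` and output positions `out`, started on the values
`0, x₀, …, x_{n-1}`, outputs `F_n x` for every input `x`. -/
def ComputesDFT (n : ℕ) (p : List Gate) (out : Fin n → ℕ) : Prop :=
  ∀ (x : Fin n → ℂ) (j : Fin n), (run (0 :: List.ofFn x) p).getD (out j) 0 =
    ∑ k : Fin n, Complex.exp (2 * Real.pi * Complex.I / n) ^ ((j : ℕ) * (k : ℕ)) * x k

/-- `L n`: the least number of gates of a linear circuit computing the DFT of length `n`. -/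
noncomputable def L (n : ℕ) : ℕ :=
  sInf {s : ℕ | ∃ (p : List Gate) (out : Fin n → ℕ), ComputesDFT n p out ∧ p.length = s}

end Vale.Agent.P344
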