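import Vale.Agent.P344.Shear

/-! Fourier matrices: Cooley–Tukey, prime factor splitting, Bluestein, in-place words. -/

namespace Vale.Agent.P344

open Finset Matrix Kronecker Complex

set_option linter.unusedSectionVars false

/-- The Fourier matrix with root `ω`. -/
def Fm (n : ℕ) (ω : ℂ) : Matrix (Fin n) (Fin n) ℂ := Matrix.of fun j k => ω ^ ((j : ℕ) * (k : ℕ))

theorem Fm_apply (n : ℕ) (ω : ℂ) (j k : Fin n) : Fm n ω j k = ω ^ ((j : ℕ) * (k : ℕ)) := rfl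

theorem Fm_inv {n : ℕ} {ω : ℂ} (h : IsPrimitiveRoot ω n) :
    ((n : ℂ)⁻¹ • Fm n ω⁻¹) * Fm n ω = 1 := by
  rw [Matrix.smul_mul]
  ext i j
  have hn : (n : ℂ) ≠ 0 := Nat.cast_ne_zero.2 i.pos.ne'
  have h0 : ω ≠ 0 := h.ne_zero (by have := i.pos; omega)
  have e : ∀ k : Fin n, ω⁻¹ ^ ((i : ℕ) * k) * ω ^ ((k : ℕ) * j) = (ω ^ (j : ℕ) / ω ^ (i : ℕ)) ^ (k : ℕ) :=
    fun k => by rw [div_pow, inv_pow, ← pow_mul, ← pow_mul, mul_comm (k : ℕ)]; field_simp
  simp only [Matrix.smul_apply, Matrix.mul_apply, Fm_apply, e, one_apply]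
  rw [Fin.sum_univ_eq_sum_range (fun k => (ω ^ (j : ℕ) / ω ^ (i : ℕ)) ^ k)]
  split_ifs with hij
  · subst hij; simp [div_self (pow_ne_zero _ h0), hn]
  · have h1 : ω ^ (j : ℕ) / ω ^ (i : ℕ) ≠ 1 := fun h1 =>
      hij (Fin.ext (h.pow_inj i.2 j.2 (eq_of_div_eq_one h1).symm))
    rw [geom_sum_eq h1, div_pow, ← pow_mul, ← pow_mul, mul_comm _ n, mul_comm _ n, pow_mul,
      pow_mul, h.pow_eq_one]
    simp

theorem Fm_inv' {n : ℕ} {ω : ℂ} (h : IsPrimitiveRoot ω n) :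
    Fm n ω * ((n : ℂ)⁻¹ • Fm n ω⁻¹) = 1 := mul_eq_one_comm.1 (Fm_inv h)

theorem circ_eq {n : ℕ} [NeZero n] {ω : ℂ} (h : IsPrimitiveRoot ω n) (κ : Fin n → ℂ) :
    ∃ d : Fin n → ℂ, circulant κ = ((n : ℂ)⁻¹ • Fm n ω⁻¹) * diagonal d * Fm n ω := by
  refine ⟨fun x => ∑ y, Fm n ω x y * κ y, ?_⟩
  rw [Matrix.mul_assoc, ← Matrix.one_mul (circulant κ), ← Fm_inv h, Matrix.mul_assoc]
  congr 1
  ext x z
  rw [diagonal_mul, Matrix.mul_apply, ← Equiv.sum_comp (Equiv.addRight z), sum_mul]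
  refine sum_congr rfl fun y _ => ?_
  simp only [Equiv.coe_addRight, circulant_apply, add_sub_cancel_right, Fm_apply, Fin.val_add]
  rw [mul_comm (x : ℕ), pow_mul, ← pow_eq_pow_mod _ h.pow_eq_one]
  ring

theorem cooley (a b : ℕ) {ω : ℂ} (h : ω ^ (a * b) = 1) :
    (Fm (a * b) ω).submatrix (fun q : Fin a × Fin b => Fin.cast (mul_comm b a)
      (finProdFinEquiv q.swap)) finProdFinEquiv =
    (1 ⊗ₖ Fm b (ω ^ a)) * diagonal (fun q : Fin a × Fin b => ω ^ ((q.1 : ℕ) * q.2)) *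
      (Fm a (ω ^ b) ⊗ₖ 1) := by
  ext ⟨j, j'⟩ ⟨l, l'⟩
  rw [Matrix.mul_apply]
  simp only [mul_diagonal, Fintype.sum_prod_type, kroneckerMap_apply, one_apply, ite_mul, zero_mul,
    mul_ite, mul_zero, one_mul, mul_one, sum_ite_eq, sum_ite_eq', mem_univ, if_true,
    submatrix_apply, Fm_apply, finProdFinEquiv_apply_val, Fin.val_cast, Prod.swap]
  rw [← pow_mul, ← pow_mul, ← pow_add, ← pow_add,
    show ((j : ℕ) + a * j') * (l' + b * l) = a * (j' * l') + j * l' + b * (j * l) +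
      a * b * (j' * l) by ring, pow_add _ _ (a * b * _), pow_mul _ (a * b), h, one_pow, mul_one]

theorem Word.cooley {a b D D' : ℕ} {ω : ℂ} (h : ω ^ (a * b) = 1)
    (h1 : Word D ((1 : Matrix (Fin a) (Fin a) ℂ) ⊗ₖ Fm b (ω ^ a)))
    (h2 : Word D' (Fm a (ω ^ b) ⊗ₖ (1 : Matrix (Fin b) (Fin b) ℂ))) :
    Word (D + D') (Fm (a * b) ω) := by
  have h3 := (h1.mul (Word.diag fun q : Fin a × Fin b => ω ^ ((q.1 : ℕ) * q.2))).mul h2
  rw [← Vale.Agent.P344.cooley a b h] at h3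
  have : Word (D + D') _ := h3.sub (fun i => (finProdFinEquiv.symm (Fin.cast (mul_comm a b) i)).swap)
    finProdFinEquiv.symm
  convert this using 1
  ext i j
  simp only [submatrix_apply, Prod.swap_swap, Equiv.apply_symm_apply, Fin.cast_cast, Fin.cast_eq_self]

theorem word_fft (s : ℕ) : ∀ {ω : ℂ}, IsPrimitiveRoot ω (2 ^ s) → Word s (Fm (2 ^ s) ω) := by
  induction s with
  | zero =>
    intro ω _
    refine ⟨fun _ => 1, id, fun i j => ?_⟩
    fin_cases i; fin_cases j; simp [Fm_apply]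
  | succ s ih =>
    intro ω h
    refine Word.cooley (a := 2 ^ s) (b := 2) (D := 1) (D' := s) h.pow_eq_one ?_ ?_ |>.mono
      (by omega)
    · have h2 : ω ^ 2 ^ s = -1 :=
        (h.pow (by positivity) (pow_succ 2 s)).eq_neg_one_of_two_right
      rw [h2]
      refine Word.one_kron ?_
      convert word_H using 1
      ext i j
      fin_cases i <;> fin_cases j <;> simp [Fm_apply]
    · exact (ih (h.pow (by positivity) (pow_succ' 2 s))).kron_one

theorem blue {n N : ℕ} [NeZero N] (hn : n ≤ N) {η : ℂ} (h0 : η ≠ 0)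
    (h : 2 * n ≤ N ∨ (η ^ (2 * N) = 1 ∧ η ^ (N * N) = 1)) :
    ∃ κ : Fin N → ℂ, Fm n (η ^ 2) = diagonal (fun j : Fin n => η ^ ((j : ℕ) * j)) *
      (circulant κ).submatrix (Fin.castLE hn) (Fin.castLE hn) *
        diagonal (fun j : Fin n => η ^ ((j : ℕ) * j)) := by
  refine ⟨fun d => if (d : ℕ) < n then (η ^ ((d : ℕ) * d))⁻¹ else (η ^ ((N - d) * (N - d)))⁻¹, ?_⟩
  ext j l
  simp only [mul_diagonal, diagonal_mul, submatrix_apply, circulant_apply, Fm_apply]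
  have hj := j.2
  have hl := l.2
  rcases le_or_gt (l : ℕ) j with hjl | hjl
  · have e : ((Fin.castLE hn j - Fin.castLE hn l : Fin N) : ℕ) = j - l :=
      Fin.sub_val_of_le (by exact hjl)
    obtain ⟨t, ht⟩ := Nat.exists_eq_add_of_le hjl
    rw [e, if_pos (by omega), ht, Nat.add_sub_cancel_left]
    field_simp
    ring
  · have e : ((Fin.castLE hn j - Fin.castLE hn l : Fin N) : ℕ) = N - (l - j) := by
      rw [Fin.sub_def]
      simp only [Fin.val_castLE]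
      rw [Nat.mod_eq_of_lt (by omega)]; omega
    obtain ⟨t, ht⟩ := Nat.exists_eq_add_of_le hjl.le
    have e2 : η ^ ((N - t) * (N - t)) = η ^ (t * t) ∨ ¬ N - t < n := by
      rcases h with h | ⟨h1, h2⟩
      · right; omega
      · left
        obtain ⟨u, hu⟩ := Nat.exists_eq_add_of_le (show t ≤ N by omega)
        have : η ^ (u * u) * η ^ (2 * N * t) = η ^ (t * t) * η ^ (N * N) := by
          rw [← pow_add, ← pow_add, hu]; congr 1; ring
        rw [pow_mul _ (2 * N), h1, h2, one_pow, mul_one, mul_one] at this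
        rw [show N - t = u by omega, this]
    have e3 : (if N - t < n then (η ^ ((N - t) * (N - t)))⁻¹ else
        (η ^ ((N - (N - t)) * (N - (N - t))))⁻¹) = (η ^ (t * t))⁻¹ := by
      split_ifs with h3
      · rw [e2.resolve_right (not_not.2 h3)]
      · rw [show N - (N - t) = t by omega]
    rw [e, show (l : ℕ) - j = t by omega, e3, ht]
    field_simp
    ring

theorem pfa {a b : ℕ} (ha : 0 < a) (hb : 0 < b) (hab : a.Coprime b) {ω : ℂ}
    (h : ω ^ (a * b) = 1) : ∃ (f : Fin (a * b) → Fin a × Fin b) (e : Fin (a * b) ≃ Fin a × Fin b),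
      Fm (a * b) ω = (Fm a (ω ^ b) ⊗ₖ Fm b (ω ^ a)).submatrix f e := by
  let g : Fin a × Fin b → Fin (a * b) := fun q => ⟨(b * q.1 + a * q.2) % (a * b),
    Nat.mod_lt _ (by positivity)⟩
  have hg : Function.Injective g := by
    rintro ⟨x, y⟩ ⟨x', y'⟩ hh
    have h1 : b * x + a * y ≡ b * x' + a * y' [MOD a * b] := congrArg Fin.val hh
    have h2 : b * x ≡ b * x' [MOD a] := by
      simpa [Nat.ModEq] using h1.of_mul_right b
    have h3 : a * y ≡ a * y' [MOD b] := by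
      simpa [Nat.ModEq] using h1.of_mul_left a
    exact Prod.ext (Fin.ext ((h2.cancel_left_of_coprime hab).eq_of_lt_of_lt x.2 x'.2))
      (Fin.ext ((h3.cancel_left_of_coprime hab.symm).eq_of_lt_of_lt y.2 y'.2))
  have hb' : Function.Bijective g := (Fintype.bijective_iff_injective_and_card g).2 ⟨hg, by simp⟩
  refine ⟨fun j => (⟨j % a, Nat.mod_lt _ ha⟩, ⟨j % b, Nat.mod_lt _ hb⟩),
    (Equiv.ofBijective g hb').symm, ?_⟩
  ext j l
  obtain ⟨⟨x, y⟩, rfl⟩ := (Equiv.ofBijective g hb').surjective l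
  rw [submatrix_apply, Equiv.symm_apply_apply]
  simp only [kroneckerMap_apply, Fm_apply, Equiv.ofBijective_apply, g]
  have h1 : (ω ^ b) ^ a = 1 := by rw [← pow_mul, mul_comm, h]
  have h2 : (ω ^ a) ^ b = 1 := by rw [← pow_mul, h]
  rw [mul_comm (j : ℕ), pow_mul, ← pow_eq_pow_mod _ h, pow_mul, pow_mul, ← pow_eq_pow_mod _ h1,
    ← pow_eq_pow_mod _ h2]
  ring

end Vale.Agent.P344
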