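import Vale.Agent.P344.Net

/-! The two-stage network and the recursion for tensor powers. -/

namespace Vale.Agent.P344

open Finset Matrix Kronecker

set_option linter.unusedSectionVars false

variable {V : Type} [AddCommGroup V] [Module ℂ V] {h : ℕ}

/-- Right tensoring. -/
def kR (P : Matrix (Fin h) (Fin h) ℤ) :
    Matrix (Fin h) (Fin h) ℤ →+ Matrix (Fin h × Fin h) (Fin h × Fin h) ℤ :=
  AddMonoidHom.mk' (fun M => M ⊗ₖ P) fun _ _ => add_kronecker _ _ _

/-- Left tensoring. -/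
def kL (P : Matrix (Fin h) (Fin h) ℤ) :
    Matrix (Fin h) (Fin h) ℤ →+ Matrix (Fin h × Fin h) (Fin h × Fin h) ℤ :=
  AddMonoidHom.mk' (fun M => P ⊗ₖ M) fun _ _ => kronecker_add _ _ _

theorem kR_apply (P M : Matrix (Fin h) (Fin h) ℤ) : kR P M = M ⊗ₖ P := rfl
theorem kL_apply (P M : Matrix (Fin h) (Fin h) ℤ) : kL P M = P ⊗ₖ M := rfl

/-- All wires. -/
abbrev Wt (h : ℕ) := (Tr h × Tr h ⊕ Tr h × Tr h) ⊕ (Tr h × Nb h ⊕ Tr h × Nb h)

/-- Number of passes of the network. -/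
def netR (h : ℕ) : ℕ :=
  2 * Fintype.card (Tr h) * locR h + Fintype.card (Tr h) ^ 2 * (2 * (h - 1) ^ 2 + 1) +
    2 * Fintype.card (Tr h) * Fintype.card (Nb h) * (h * (h - 1))

/-- Number of scalar gates per array entry of the network. -/
def netK (h : ℕ) : ℕ := 2 * Fintype.card (Tr h) * locK h + 6 * Fintype.card (Tr h) ^ 2

theorem Ph_zero {ι : Type} [Fintype ι] [DecidableEq ι] {f : ℕ} {M : Matrix ι ι ℤ} (hM : M = 0)
    (u : (ι × Fin f → ZMod 2) → V) : Ph f M u = Set.range u := by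
  rw [hM, Ph, act_O_zero]

theorem St_sub {x y : Tr h → Set V} {a : Nb h → Set V} {S : Set V} (hx : ∀ T, x T ⊆ S)
    (hy : ∀ T, y T ⊆ S) (ha : ∀ n, a n ⊆ S) : St x y a (fun _ => ∅) ⊆ S :=
  Set.union_subset (Set.union_subset (Set.union_subset (Set.iUnion_subset hx)
    (Set.iUnion_subset hy)) (Set.iUnion_subset ha)) (by simp)

theorem sub_iU {J : Type} {S : J → Set V} {Q : Set V} (j : J) (h : Sup (S j) Q) :
    Q ⊆ ⋃ j, S j := Set.subset_iUnion_of_subset j h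

theorem net (hh : 8 ≤ h) {f p : ℕ} (hp : Pass (Fin h × Fin h) f p)
    (ξ : Wt h → ((Fin h × Fin h) × Fin f → ZMod 2) → V) :
    Can (⋃ w, Set.range (ξ w)) (netR h * p + netK h * 2 ^ (Fintype.card (Fin h × Fin h) * f))
      (⋃ w, Set.range (act (CK ((Fin h × Fin h) × Fin f)) (ξ w))) := by
  have hI : Rk (1 : Matrix (Fin h) (Fin h) ℤ) h := by simpa using Rk.one (ι := Fin h)
  set S0 := ⋃ w, Set.range (ξ w) with hS0
  have h0 : ∀ w, Set.range (ξ w) ⊆ S0 := fun w => Set.subset_iUnion (fun w => Set.range (ξ w)) w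
  let x : Tr h → Tr h → ((Fin h × Fin h) × Fin f → ZMod 2) → V := fun a b =>
    act (O f (-(PP a ⊗ₖ PP b))) (ξ (.inl (.inl (a, b))))
  let y : Tr h → Tr h → ((Fin h × Fin h) × Fin f → ZMod 2) → V := fun a b => ξ (.inl (.inr (a, b)))
  let A : Tr h → Nb h → ((Fin h × Fin h) × Fin f → ZMod 2) → V := fun a n => ξ (.inr (.inl (a, n)))
  let A' : Tr h → Nb h → ((Fin h × Fin h) × Fin f → ZMod 2) → V := fun a n =>
    ξ (.inr (.inr (a, n)))
  let B : Tr h → Matrix (Fin h × Fin h) (Fin h × Fin h) ℤ := fun a => (1 - PP a) ⊗ₖ 1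
  have hR : ∀ (b : Tr h) M r, Rk M r → Rk (kR (PP b) M) r := fun b M r hr => by
    simpa [kR_apply] using hr.kron (rk_PP b)
  have hL : ∀ (b : Tr h) M r, Rk M r → Rk (kL (PP b) M) r := fun b M r hr => by
    simpa [kL_apply] using (rk_PP b).kron hr
  -- stage one
  have s1 := Can.iUnion (S := S0) fun b =>
    (shear1 hh hp 0 (kR (PP b)) (hR b) (fun a => x a b) (fun a => y a b) (A b)).monoS
      (St_sub (fun a => by
          rw [Ph, ← act_O_add, zero_add, kR_apply, add_neg_cancel, act_O_zero]; exact h0 _)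
        (fun a => by rw [Ph_zero (by simp)]; exact h0 _)
        (fun n => by rw [Ph_zero (by simp)]; exact h0 _))
  set S1 := ⋃ b, St (fun a => Ph f (0 + kR (PP b) 1) (x a b))
    (fun a => Ph f (0 + kR (PP b) (1 - PP a)) (y a b + x a b))
    (fun n => Ph f (0 + kR (PP b) 1) (A b n)) fun _ => (∅ : Set V) with hS1
  -- moves
  have m1 : ∀ q : Tr h × Tr h, Can (S0 ∪ S1) ((h - 1) * (h - 1) * p)
      (Ph f (B q.1 + kL (PP q.1) (PP q.2)) (x q.1 q.2)) := fun q =>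
    Ph.move hp (M := 0 + kR (PP q.2) 1) (by
      convert (rk_Q hh q.1).kron (rk_Q hh q.2) using 1
      ext i j; simp [B, kL_apply, kR_apply]; ring)
      (Set.subset_union_of_subset_right (sub_iU q.2 (St.hx q.1)) _)
  have m2 : ∀ q : Tr h × Tr h, Can (S0 ∪ S1) ((h - 1) * (h - 1) * p)
      (Ph f (B q.1 + kL (PP q.1) 0) (y q.1 q.2 + x q.1 q.2)) := fun q =>
    Ph.move hp (M := 0 + kR (PP q.2) (1 - PP q.1)) (by
      convert (rk_Q hh q.1).kron (rk_Q hh q.2) using 1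
      ext i j; simp [B, kR_apply]; ring)
      (Set.subset_union_of_subset_right (sub_iU q.2 (St.hy q.1)) _)
  have m3 : ∀ q : Tr h × Nb h, Can (S0 ∪ S1) (h * (h - 1) * p) (Ph f 1 (A q.1 q.2)) := fun q =>
    Ph.move hp (M := 0 + kR (PP q.1) 1) (by
      convert hI.kron (rk_Q hh q.1) using 1
      rw [← one_kronecker_one]
      ext i j; simp only [kR_apply, zero_add, Matrix.sub_apply, kroneckerMap_apply]; ring)
      (Set.subset_union_of_subset_right (sub_iU q.1 (St.ha q.2)) _)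
  have m4 : ∀ q : Tr h × Nb h, Can (S0 ∪ S1) ((h - 1) * h * p)
      (Ph f (B q.1 + kL (PP q.1) 0) (A' q.1 q.2)) := fun q =>
    Ph.move hp (M := 0) (by simpa [B] using (rk_Q hh q.1).kron hI)
      (Set.subset_union_of_subset_left (by rw [Ph_zero rfl]; exact h0 _) _)
  have s2 := (((Can.iUnion m1).union (Can.iUnion m2)).union (Can.iUnion m4)).union
    (Can.iUnion m3)
  set S2 := ((⋃ q : Tr h × Tr h, Ph f (B q.1 + kL (PP q.1) (PP q.2)) (x q.1 q.2)) ∪
    (⋃ q : Tr h × Tr h, Ph f (B q.1 + kL (PP q.1) 0) (y q.1 q.2 + x q.1 q.2)) ∪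
    ⋃ q : Tr h × Nb h, Ph f (B q.1 + kL (PP q.1) 0) (A' q.1 q.2)) ∪
    ⋃ q : Tr h × Nb h, Ph f 1 (A q.1 q.2) with hS2
  -- stage two
  have s3 := Can.iUnion (S := S2) fun a =>
    (shear2 hh hp (B a) (kL (PP a)) (hL a) (fun b => x a b) (fun b => y a b + x a b) (A' a)).monoS
      (St_sub (fun b _ hv => Or.inl (Or.inl (Or.inl (Set.mem_iUnion.2 ⟨(a, b), hv⟩))))
        (fun b _ hv => Or.inl (Or.inl (Or.inr (Set.mem_iUnion.2 ⟨(a, b), hv⟩))))
        (fun n _ hv => Or.inl (Or.inr (Set.mem_iUnion.2 ⟨(a, n), hv⟩))))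
  set S3 := ⋃ a, St (fun b => Ph f (B a + kL (PP a) 1) (x a b - (y a b + x a b)))
    (fun b => Ph f (B a + kL (PP a) (1 - PP b)) (y a b + x a b))
    (fun n => Ph f (B a + kL (PP a) 1) (A' a n)) fun _ => (∅ : Set V) with hS3
  have hB1 : ∀ a, B a + kL (PP a) 1 = 1 := fun a => by
    rw [← one_kronecker_one (m := Fin h) (n := Fin h)]
    ext i j; simp only [B, kL_apply, Matrix.add_apply, Matrix.sub_apply, kroneckerMap_apply]; ring
  have f1 : ∀ q : Tr h × Tr h, Can (S2 ∪ S3) (2 ^ (Fintype.card (Fin h × Fin h) * f) * 3)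
      (Ph f 1 (y q.1 q.2)) := fun q => by
    have := Ph.lin1 (f := f) (M := B q.1 + kL (PP q.1) 1) (S := S2 ∪ S3) (-1) 0
      (x q.1 q.2 - (y q.1 q.2 + x q.1 q.2)) Ph.zero
      (Set.subset_union_of_subset_right (sub_iU q.1 (St.hx q.2)) _)
    rwa [hB1, show 0 + (-1 : ℂ) • (x q.1 q.2 - (y q.1 q.2 + x q.1 q.2)) = y q.1 q.2 by simp]
      at this
  have f2 : ∀ q : Tr h × Tr h, Can (S2 ∪ S3) (p + 2 ^ (Fintype.card (Fin h × Fin h) * f) * 3)
      (Ph f 1 (ξ (.inl (.inl q)))) := fun q => by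
    have hPP : Rk (PP q.1 ⊗ₖ PP q.2) 1 := (rk_PP q.1).kron (rk_PP q.2)
    have e : B q.1 + kL (PP q.1) (1 - PP q.2) = 1 - PP q.1 ⊗ₖ PP q.2 := by
      rw [← one_kronecker_one (m := Fin h) (n := Fin h)]
      ext i j; simp only [B, kL_apply, Matrix.add_apply, Matrix.sub_apply, kroneckerMap_apply]; ring
    have g1 := Ph.move hp (M := B q.1 + kL (PP q.1) 1) (M' := B q.1 + kL (PP q.1) (1 - PP q.2))
      (r := 1) (u := x q.1 q.2 - (y q.1 q.2 + x q.1 q.2)) (S := S2 ∪ S3)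
      (by rw [e, hB1]; simpa using hPP.neg)
      (Set.subset_union_of_subset_right (sub_iU q.1 (St.hx q.2)) _)
    have g2 := g1.trans (Ph.lin1 (M := B q.1 + kL (PP q.1) (1 - PP q.2)) 1
      (y q.1 q.2 + x q.1 q.2) (x q.1 q.2 - (y q.1 q.2 + x q.1 q.2))
      (sub_ins (Set.subset_union_of_subset_left
        (Set.subset_union_of_subset_right (sub_iU q.1 (St.hy q.2)) _) _))
      Set.subset_union_right)
    rw [show y q.1 q.2 + x q.1 q.2 + (1 : ℂ) • (x q.1 q.2 - (y q.1 q.2 + x q.1 q.2)) = x q.1 q.2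
      by simp, e] at g2
    have g3 := g2.trans' (Ph.move hp (M := 1 - PP q.1 ⊗ₖ PP q.2 + -(PP q.1 ⊗ₖ PP q.2)) (M' := 1)
      (r := 0) (u := ξ (.inl (.inl q))) (by
        convert Rk.two _ hPP.isSymm using 1
        rw [two_smul]; abel) (by rw [Ph, act_O_add]; exact le_rfl))
    simpa using g3
  have s4 := ((Can.iUnion f1).union (Can.iUnion f2)).keep
  refine ((s1.trans s2).trans' (s3.trans s4)).mono (Set.subset_insert _ _) (le_of_eq ?_) ?_
  · simp only [netR, netK, Fintype.card_prod]; ring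
  · refine Set.iUnion_subset ?_
    simp only [← act_O_one]
    rintro ((q | q) | (q | q))
    · exact fun _ hv => Or.inr (Or.inr (Set.mem_iUnion.2 ⟨q, hv⟩))
    · exact fun _ hv => Or.inr (Or.inl (Set.mem_iUnion.2 ⟨q, hv⟩))
    · exact fun _ hv => Or.inl (Or.inl (Or.inr (Set.mem_iUnion.2 ⟨q, hv⟩)))
    · refine Set.subset_union_of_subset_left (Set.subset_union_of_subset_right
        (sub_iU q.1 ?_) _) _
      have := St.ha (x := fun b => Ph f (B q.1 + kL (PP q.1) 1) (x q.1 b - (y q.1 b + x q.1 b)))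
        (y := fun b => Ph f (B q.1 + kL (PP q.1) (1 - PP b)) (y q.1 b + x q.1 b))
        (a := fun n => Ph f (B q.1 + kL (PP q.1) 1) (A' q.1 n)) (z := fun _ => (∅ : Set V)) q.2
      conv at this => enter [2]; rw [hB1]
      exact this

theorem netR_eq (hh : 8 ≤ h) : netR h + Fintype.card (Tr h) ^ 2 =
    Fintype.card (Wt h) * h ^ 2 + 2 * Fintype.card (Tr h) * h ^ 2 := by
  obtain ⟨k, rfl⟩ : ∃ k, h = k + 1 := ⟨h - 1, by omega⟩
  simp only [netR, locR, Fintype.card_sum, Fintype.card_prod, Nat.add_sub_cancel]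
  ring

theorem MC_CK_equiv {κ κ' : Type} [Fintype κ] [Fintype κ'] [DecidableEq κ] [DecidableEq κ']
    (e : κ ≃ κ') {c : ℕ} (hc : MC (CK κ) c) : MC (CK κ') c := by
  have : CK κ' = (CK κ).submatrix (e.symm.arrowCongr (Equiv.refl _))
      (e.symm.arrowCongr (Equiv.refl _)) := by
    ext x y
    simp only [CK, submatrix_apply]
    rw [← Equiv.prod_comp e]; simp
  rw [this]
  exact hc.submatrix _ _

theorem MC_CK_split {κ κ' : Type} [Fintype κ] [Fintype κ'] [DecidableEq κ] [DecidableEq κ']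
    {c c' : ℕ} (hc : MC (CK κ) c)
    (hc' : ∀ (W : Type) [AddCommGroup W] [Module ℂ W] (ξ : (κ → ZMod 2) → (κ' → ZMod 2) → W),
      Can (⋃ a, Set.range (ξ a)) c' (⋃ a, Set.range (act (CK κ') (ξ a)))) :
    MC (CK (κ ⊕ κ')) (c' + 2 ^ Fintype.card κ' * c) := by
  intro W _ _ x
  have h1 := (hc' W fun a b => x (Sum.elim a b)).monoS (S' := Set.range x)
    (Set.iUnion_subset fun a => by rintro _ ⟨b, rfl⟩; exact ⟨_, rfl⟩)
  have h2 := Can.iUnion (S := ⋃ a, Set.range (act (CK κ') fun b => x (Sum.elim a b)))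
    fun b : κ' → ZMod 2 => (hc W fun a => act (CK κ') (fun b => x (Sum.elim a b)) b).monoS
      (by rintro _ ⟨a, rfl⟩; exact Set.mem_iUnion.2 ⟨a, b, rfl⟩)
  refine (h1.trans' h2).mono (Set.subset_insert _ _) (by simp) ?_
  rintro _ ⟨ω, rfl⟩
  refine Set.mem_iUnion.2 ⟨fun i => ω (.inr i), fun i => ω (.inl i), ?_⟩
  simp only [act, CK, Fintype.prod_sum_type, Finset.smul_sum, smul_smul]
  rw [← (Equiv.sumArrowEquivProdArrow κ κ' (ZMod 2)).symm.sum_comp, Fintype.sum_prod_type]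
  rfl

theorem batch (hh : 8 ≤ h) {f p : ℕ} (hp : Pass (Fin h × Fin h) f p) {J : Type} [Fintype J]
    [Nonempty J] (nb : ℕ) (hnb : Fintype.card J ≤ nb * Fintype.card (Wt h))
    (ξ : J → ((Fin h × Fin h) × Fin f → ZMod 2) → V) :
    Can (⋃ w, Set.range (ξ w))
      (nb * (netR h * p + netK h * 2 ^ (Fintype.card (Fin h × Fin h) * f)))
      (⋃ w, Set.range (act (CK ((Fin h × Fin h) × Fin f)) (ξ w))) := by
  obtain ⟨g, hg⟩ : ∃ g : Fin nb × Wt h → J, Function.Surjective g := by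
    obtain ⟨i⟩ : Nonempty (J ↪ Fin nb × Wt h) :=
      Function.Embedding.nonempty_of_card_le (by simpa using hnb)
    exact ⟨Function.invFun i, Function.invFun_surjective i.injective⟩
  have := Can.iUnion (S := ⋃ w, Set.range (ξ w)) fun b : Fin nb =>
    (net hh hp fun w => ξ (g (b, w))).monoS
      (Set.iUnion_subset fun w => Set.subset_iUnion (fun w => Set.range (ξ w)) _)
  refine this.mono (Set.subset_insert _ _) (by simp) (Set.iUnion_subset fun j => ?_)
  obtain ⟨⟨b, w⟩, rfl⟩ := hg j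
  exact fun _ hv => Set.mem_iUnion.2 ⟨b, Set.mem_iUnion.2 ⟨w, hv⟩⟩

theorem rec_step (hh : 8 ≤ h) {f c : ℕ} (hc : MC (CK (Fin f)) c) (w : ℕ) :
    MC (CK (Fin (w + h ^ 2 * f)))
      ((2 ^ w / Fintype.card (Wt h) + 1) *
        (netR h * (2 ^ ((h ^ 2 - 1) * f) * c) + netK h * 2 ^ (h ^ 2 * f)) +
        2 ^ (h ^ 2 * f) * (2 ^ w * (2 * 2 ^ w))) := by
  have hp : Pass (Fin h × Fin h) f (2 ^ ((h ^ 2 - 1) * f) * c) := fun W _ _ v x => by
    simpa [pow_two] using can_O_vv hc v x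
  have hW : 0 < Fintype.card (Wt h) := by
    obtain ⟨T, -, hT⟩ := Finset.exists_subset_card_eq (s := (univ : Finset (Fin h))) (n := 3)
      (by simp; omega)
    exact Fintype.card_pos_iff.2 ⟨.inl (.inl (⟨T, hT⟩, ⟨T, hT⟩))⟩
  have h1 := MC_CK_split (κ := Fin w) (κ' := (Fin h × Fin h) × Fin f) (MC.trivial _)
    fun W _ _ ξ => batch hh hp (2 ^ w / Fintype.card (Wt h) + 1) (by
      have := Nat.lt_div_mul_add (a := 2 ^ w) hW
      simp only [Fintype.card_fun, ZMod.card, Fintype.card_fin]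
      rw [add_mul, one_mul]; omega) ξ
  have h2 := MC_CK_equiv (Fintype.equivFinOfCardEq
    (show Fintype.card (Fin w ⊕ (Fin h × Fin h) × Fin f) = w + h ^ 2 * f by simp [pow_two])) h1
  simpa [pow_two] using h2

end Vale.Agent.P344
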