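import Vale.Agent.P344.Place

/-! Assembly of the circuit for the discrete Fourier transform. -/

namespace Vale.Agent.P344

open Finset Matrix Kronecker

theorem MC.submatrix' {α β α' β' : Type} [Fintype β] [Fintype β'] {M : Matrix α β ℂ} {c : ℕ}
    (h : MC M c) (a : α' → α) {e : β' → β} (he : Function.Injective e) :
    MC (M.submatrix a e) c := by
  classical
  intro W _ _ x
  refine (h W (Function.extend e x 0)).mono ?_ le_rfl ?_
  · rintro _ ⟨i, rfl⟩
    by_cases hi : ∃ j, e j = i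
    · obtain ⟨j, rfl⟩ := hi
      exact Or.inr ⟨j, (he.extend_apply _ _ _).symm⟩
    · exact Or.inl (Function.extend_apply' _ _ _ hi)
  · rintro _ ⟨i, rfl⟩
    refine ⟨a i, (Fintype.sum_of_injective e he _ _ (fun j hj => ?_) fun j => ?_).symm⟩
    · rw [Function.extend_apply' _ _ _ hj]; simp
    · rw [he.extend_apply]; rfl

theorem multi {t K D : ℕ} (h0 : ∀ k ≤ K, MC (CK (Fin k)) (t * 2 ^ k)) (r : ℕ → ℕ) (s : Finset ℕ)
    (hc : ∀ p ∈ s, ∀ q ∈ s, p ≠ q → (r p).Coprime (r q)) (hr : ∀ p ∈ s, 10 ≤ r p)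
    (hD : ∀ p ∈ s, 40 * (72 * (Nat.log 2 (r p) + 2) + 360) ≤ D) :
    ∀ N, N = ∏ p ∈ s, r p * r p → ∀ ω : ℂ, IsPrimitiveRoot ω N →
      Wd (Good t K s.card) D (Fm N ω) := by
  induction s using Finset.induction_on with
  | empty =>
    rintro N hN ω -
    obtain rfl : N = 1 := by simpa using hN
    refine Wd.mono (D := 0) ?_ ⟨fun _ => 1, id, fun i j => ?_⟩ (Nat.zero_le _)
    · intro κ _ _ hk
      have := (MC_CK_equiv (Fintype.equivFin κ).symm (h0 _ (by simpa using hk))).submatrix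
        (Equiv.prodUnique _ (Fin 1)) (Equiv.prodUnique _ (Fin 1))
      convert this using 1
      · ext ⟨i, x⟩ ⟨j, y⟩; simp [one_apply, Subsingleton.elim x y]
      · simp
    · fin_cases i; fin_cases j; simp [Fm_apply]
  | insert p s hp ih =>
    intro N hN ω hω
    rw [prod_insert hp] at hN
    subst hN
    have h1 := hr p (mem_insert_self _ _)
    have h2 : 0 < ∏ q ∈ s, r q * r q := prod_pos fun q hq => by
      have := hr q (mem_insert_of_mem hq); positivity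
    have h3 : (r p * r p).Coprime (∏ q ∈ s, r q * r q) := Nat.Coprime.prod_right fun q hq => by
      have := hc p (mem_insert_self _ _) q (mem_insert_of_mem hq) (by rintro rfl; exact hp hq)
      exact Nat.Coprime.mul_left (this.mul_right this) (this.mul_right this)
    obtain ⟨f, e, hf⟩ := pfa (by positivity) h2 h3 hω.pow_eq_one
    rw [hf, card_insert_of_notMem hp]
    refine Wd.sub e (fun _ h => h.sub e) (Word.tensor ?_ ?_) f
    · exact (word_sq h1 (hω.pow (by positivity) (mul_comm _ _))).mono (hD p (mem_insert_self _ _))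
    · exact ih (fun a ha b hb => hc a (mem_insert_of_mem ha) b (mem_insert_of_mem hb))
        (fun a ha => hr a (mem_insert_of_mem ha)) (fun a ha => hD a (mem_insert_of_mem ha)) _ rfl _
        (hω.pow (by positivity) rfl)

theorem mc_of_multi {n N t K k D : ℕ} (hn : 0 < n) (hN : 2 * n ≤ N) (hk : k ≤ K)
    (h : ∀ ω : ℂ, IsPrimitiveRoot ω N → Wd (Good t K k) D (Fm N ω)) {ω : ℂ} (hω : ω ≠ 0) :
    MC (Fm n ω) (2 * n + 2 * ((D + 1) * N + D * (t * N))) := by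
  have : NeZero N := ⟨by omega⟩
  obtain ⟨η, h0, rfl⟩ := exists_sqrt hω
  obtain ⟨ζ, hζ⟩ := exists_root N (by omega)
  have hn' : n ≤ N := by omega
  obtain ⟨κ, hκ⟩ := blue hn' h0 (Or.inl hN)
  obtain ⟨d, hd⟩ := circ_eq hζ κ
  have h1 := (Wd.mc (fun _ h => h.mc hk) (Wd.mon_mul (IsMon.diag fun _ => (N : ℂ)⁻¹)
    (h _ hζ.inv))).mul (Wd.mc (fun _ h => h.mc hk) (Wd.mon_mul (IsMon.diag d) (h _ hζ)))
  rw [← smul_eq_diagonal_mul, ← Matrix.mul_assoc, ← hd] at h1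
  rw [hκ]
  exact (((IsMon.diag _).mc.mul (h1.submatrix' _ (Fin.castLE_injective hn'))).mul
    (IsMon.diag _).mc).monoC (by simp; omega)

theorem cb_step (y : ℕ) : 2 * y.centralBinom ≤ (y + 1).centralBinom ∧
    (y + 1).centralBinom ≤ 4 * y.centralBinom := by
  have h := Nat.succ_mul_centralBinom_succ y
  constructor <;> refine Nat.le_of_mul_le_mul_left ?_ (Nat.succ_pos y) <;>
    simp only [Nat.succ_eq_add_one] <;> nlinarith [Nat.zero_le y.centralBinom]

theorem cb_ge (y : ℕ) : 2 ^ y ≤ y.centralBinom := by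
  induction y with
  | zero => simp
  | succ y ih => have := (cb_step y).1; rw [pow_succ]; omega

theorem exists_moduli {n : ℕ} (hn : 0 < n) : ∃ (r : ℕ → ℕ) (s : Finset ℕ) (y : ℕ),
    (∀ p ∈ s, ∀ q ∈ s, p ≠ q → (r p).Coprime (r q)) ∧ (∀ p ∈ s, 10 ≤ r p) ∧
    (∀ p ∈ s, r p ≤ 2 * y) ∧ s.card ≤ 2 * y + 1 ∧ 2 * n ≤ ∏ p ∈ s, r p * r p ∧
    ∏ p ∈ s, r p * r p ≤ 10 ^ 23 * n ∧ 2 ^ y ≤ 2 ^ 37 * n ∧ 0 < y := by
  obtain ⟨q, hq⟩ : ∃ q, q = Nat.sqrt (2 * n) := ⟨_, rfl⟩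
  have q1 : q * q ≤ 2 * n := hq ▸ Nat.sqrt_le _
  have q2 : 2 * n < (q + 1) * (q + 1) := hq ▸ Nat.lt_succ_sqrt _
  have q3 : q ≤ 2 * n := hq ▸ Nat.sqrt_le_self _
  have hex : ∃ y : ℕ, 10 ^ 10 * (q + 1) ≤ y.centralBinom :=
    ⟨_, Nat.lt_two_pow_self.le.trans (cb_ge _)⟩
  have h1 := Nat.find_spec hex
  obtain ⟨y, hy⟩ : ∃ y, Nat.find hex = y + 1 := Nat.exists_eq_add_one_of_ne_zero fun h => by
    rw [h] at h1; simp at h1; omega
  have h2 := Nat.find_min hex (m := y) (by omega)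
  rw [hy] at h1
  have h3 := (cb_step y).2
  have h4 := cb_ge (y + 1)
  obtain ⟨B, hB⟩ : ∃ B, B = (y + 1).centralBinom := ⟨_, rfl⟩
  have h5 : ∀ p, p ^ B.factorization p ≤ 2 * (y + 1) := fun p =>
    hB ▸ Nat.pow_factorization_choose_le (by omega)
  rw [← hB] at h1 h3 h4
  have h6 : ∏ p ∈ B.primeFactors, p ^ B.factorization p = B :=
    Nat.prod_factorization_pow_eq_self (by omega)
  have h7 : ∀ p ∈ B.primeFactors, p ≤ p ^ B.factorization p := fun p hp =>
    Nat.le_self_pow (by simpa [← Nat.support_factorization] using hp) p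
  rw [← prod_filter_mul_prod_filter_not _ (fun p => 10 ≤ p ^ B.factorization p)] at h6
  have h8 : ∏ p ∈ B.primeFactors with ¬ 10 ≤ p ^ B.factorization p, p ^ B.factorization p ≤
      10 ^ 10 := by
    refine (prod_le_pow_card _ _ 10 fun p hp => ?_).trans (Nat.pow_le_pow_right (by norm_num) ?_)
    · have := (mem_filter.1 hp).2; omega
    · refine (card_le_card (t := range 10) fun p hp => ?_).trans (by simp)
      have := h7 p (mem_filter.1 hp).1
      have := (mem_filter.1 hp).2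
      rw [mem_range]; omega
  refine ⟨fun p => p ^ B.factorization p, B.primeFactors.filter
    (fun p => 10 ≤ p ^ B.factorization p), y + 1, fun p hp p' hp' hne => ?_,
    fun p hp => (mem_filter.1 hp).2, fun p _ => h5 p, ?_, ?_, ?_, by omega, by omega⟩
  · exact Nat.coprime_pow_primes _ _ (Nat.prime_of_mem_primeFactors (mem_filter.1 hp).1)
      (Nat.prime_of_mem_primeFactors (mem_filter.1 hp').1) hne
  · refine (card_le_card (t := range (2 * (y + 1) + 1)) fun p hp => ?_).trans (by simp)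
    have := h7 p (mem_filter.1 hp).1
    have := h5 p
    rw [mem_range]; omega
  all_goals
    rw [prod_mul_distrib]
    generalize ∏ p ∈ B.primeFactors with 10 ≤ p ^ B.factorization p, p ^ B.factorization p = M
      at *
    generalize ∏ p ∈ B.primeFactors with ¬ 10 ≤ p ^ B.factorization p, p ^ B.factorization p = M'
      at *
  · have : q + 1 ≤ M := by
      by_contra hM
      have : M * M' ≤ q * 10 ^ 10 := Nat.mul_le_mul (by omega) h8
      omega
    exact q2.le.trans (Nat.mul_le_mul this this)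
  · have h9 : M ≤ B := h6 ▸ Nat.le_mul_of_pos_right _ (Nat.pos_of_ne_zero fun h => by
      rw [h] at h6; omega)
    have h10 : M ≤ 4 * 10 ^ 10 * (q + 1) := by omega
    have := Nat.mul_le_mul h10 h10
    nlinarith

theorem main_bound : ∃ C : ℝ, ∀ n : ℕ, 2 ≤ n → ∃ c : ℕ,
    MC (Fm n (Complex.exp (2 * Real.pi * Complex.I / n))) c ∧
      (c : ℝ) ≤ C * n * Real.logb 2 n ^ (1 - 4 / 10 ^ 8 : ℝ) := by
  obtain ⟨A, hA, hA'⟩ := exists_CK_bound
  have e0 : (1 - 4 / 10 ^ 8 : ℝ) = 1 / 10 ^ 8 + (1 - 5 / 10 ^ 8) := by norm_num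
  have hσ0 : (0 : ℝ) ≤ 1 - 5 / 10 ^ 8 := by norm_num
  have hσ1 : (1 - 5 / 10 ^ 8 : ℝ) ≤ 1 := by norm_num
  have hε0 : (0 : ℝ) < 1 / 10 ^ 8 := by norm_num
  have hε1 : (1 / 10 ^ 8 : ℝ) ≤ 1 := by norm_num
  rw [e0]
  generalize (1 - 5 / 10 ^ 8 : ℝ) = σ at *
  generalize (1 / 10 ^ 8 : ℝ) = ε at *
  refine ⟨2 + 2 * 10 ^ 23 * (2880 * (152 / ε) + 20161) * (78 * A + 2), fun n hn => ?_⟩
  obtain ⟨r, s, y, h1, h2, h3, h4, h5, h6, h7, h8⟩ := exists_moduli (show 0 < n by omega)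
  have h0 : ∀ k ≤ 2 * y + 1, MC (CK (Fin k)) (⌈A * (2 * y + 2 : ℝ) ^ σ⌉₊ * 2 ^ k) := fun k hk => by
    obtain ⟨c, a1, a2⟩ := hA' k
    refine a1.monoC ?_
    have a3 : (k : ℝ) + 1 ≤ 2 * y + 2 := by exact_mod_cast (by omega : k + 1 ≤ 2 * y + 2)
    have : (c : ℝ) ≤ ⌈A * (2 * y + 2 : ℝ) ^ σ⌉₊ * 2 ^ k := a2.trans (by
      gcongr
      exact le_trans (by gcongr) (Nat.le_ceil _))
    exact_mod_cast this
  refine ⟨_, mc_of_multi (by omega) h5 h4 (multi (D := 40 * (72 * (Nat.log 2 (2 * y) + 2) + 360))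
    h0 r s h1 h2 (fun p hp => by have := Nat.log_mono_right (b := 2) (h3 p hp); omega) _ rfl)
    (Complex.exp_ne_zero _), ?_⟩
  have hn' : (2 : ℝ) ≤ n := by exact_mod_cast hn
  have l1 : 1 ≤ Real.logb 2 n := by
    rw [Real.le_logb_iff_rpow_le one_lt_two (by linarith)]; simpa using hn'
  have l2 : (y : ℝ) ≤ 37 + Real.logb 2 n := by
    rw [← sub_le_iff_le_add', Real.le_logb_iff_rpow_le one_lt_two (by linarith),
      Real.rpow_sub two_pos, div_le_iff₀' (by positivity)]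
    exact_mod_cast h7
  generalize Real.logb 2 n = l at *
  have l3 : 1 ≤ l ^ σ := Real.one_le_rpow l1 hσ0
  have l4 : 1 ≤ l ^ ε := Real.one_le_rpow l1 hε0.le
  have t1 : (⌈A * (2 * y + 2 : ℝ) ^ σ⌉₊ : ℝ) + 1 ≤ (78 * A + 2) * l ^ σ := by
    have a1 := (Nat.ceil_lt_add_one (a := A * (2 * y + 2 : ℝ) ^ σ) (by positivity)).le
    have a2 : (2 * y + 2 : ℝ) ^ σ ≤ 78 * l ^ σ := calc
      _ ≤ (78 * l) ^ σ := by gcongr; linarith
      _ = 78 ^ σ * l ^ σ := Real.mul_rpow (by norm_num) (by linarith)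
      _ ≤ _ := by gcongr; exact Real.rpow_le_self_of_one_le (by norm_num) hσ1
    nlinarith
  have t2 : (Nat.log 2 (2 * y) : ℝ) ≤ 152 / ε * l ^ ε := by
    have a0 : (1 : ℝ) ≤ y := by exact_mod_cast h8
    have a1 : (Nat.log 2 (2 * y) : ℝ) * Real.log 2 ≤ Real.log (2 * y) := by
      rw [← Real.log_pow]
      refine Real.log_le_log (by positivity) ?_
      exact_mod_cast Nat.pow_log_le_self 2 (by omega)
    have a2 := Real.log_le_rpow_div (x := 2 * y) (by positivity) hε0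
    have a3 : (2 * y : ℝ) ^ ε ≤ 76 * l ^ ε := calc
      _ ≤ (76 * l) ^ ε := Real.rpow_le_rpow (by positivity) (by linarith) hε0.le
      _ = 76 ^ ε * l ^ ε := Real.mul_rpow (by norm_num) (by linarith)
      _ ≤ _ := by gcongr; exact Real.rpow_le_self_of_one_le (by norm_num) hε1
    have a4 : (2 * y : ℝ) ^ ε / ε ≤ 76 * l ^ ε / ε := by gcongr
    have a5 := Real.log_two_gt_d9
    have a6 : 152 / ε * l ^ ε = 2 * (76 * l ^ ε / ε) := by ring
    have a7 : (0 : ℝ) ≤ Nat.log 2 (2 * y) := by positivity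
    nlinarith
  have h6' : ((∏ p ∈ s, r p * r p : ℕ) : ℝ) ≤ 10 ^ 23 * n := by exact_mod_cast h6
  generalize ∏ p ∈ s, r p * r p = N at *
  generalize ⌈A * (2 * y + 2 : ℝ) ^ σ⌉₊ = t at *
  generalize Nat.log 2 (2 * y) = g at *
  push_cast
  rw [Real.rpow_add (by linarith)]
  have t3 : (40 * (72 * (g + 2) + 360) + 1 : ℝ) ≤ (2880 * (152 / ε) + 20161) * l ^ ε := by
    nlinarith
  have t4 : 1 ≤ l ^ ε * l ^ σ := one_le_mul_of_one_le_of_one_le l4 l3
  calc _ ≤ 2 * n + 2 * (N * ((40 * (72 * (g + 2) + 360) + 1) * (t + 1)) : ℝ) := by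
        have : (0 : ℝ) ≤ N * t := by positivity
        nlinarith
    _ ≤ 2 * n * (l ^ ε * l ^ σ) + 2 * (10 ^ 23 * n * (((2880 * (152 / ε) + 20161) * l ^ ε) *
        ((78 * A + 2) * l ^ σ))) := by
        refine add_le_add (le_mul_of_one_le_right (by positivity) t4) ?_
        gcongr
    _ = _ := by ring

theorem L_bound : ∃ C : ℝ, ∀ n : ℕ, 2 ≤ n →
    (∃ (p : List Gate) (out : Fin n → ℕ), ComputesDFT n p out ∧ p.length = L n) ∧
      (L n : ℝ) ≤ C * n * Real.logb 2 n ^ (1 - 4 / 10 ^ 8 : ℝ) := by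
  obtain ⟨C, hC⟩ := main_bound
  refine ⟨C, fun n hn => ?_⟩
  obtain ⟨c, h1, h2⟩ := hC n hn
  obtain ⟨p, out, h3, h4⟩ := L_le h1
  have h5 : L n ≤ p.length := Nat.sInf_le ⟨p, out, h3, rfl⟩
  refine ⟨Nat.sInf_mem (s := {s : ℕ | ∃ (p : List Gate) (out : Fin n → ℕ),
    ComputesDFT n p out ∧ p.length = s}) ⟨_, p, out, h3, rfl⟩, le_trans ?_ h2⟩
  exact_mod_cast h5.trans h4

open Filter in
theorem not_lower : ¬ ∃ c : ℝ, 0 < c ∧ ∀ᶠ n : ℕ in atTop, c * n * Real.logb 2 n ≤ L n := by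
  rintro ⟨c, hc, h⟩
  obtain ⟨C, hC⟩ := L_bound
  have h1 : Tendsto (fun n : ℕ => Real.logb 2 n ^ (4 / 10 ^ 8 : ℝ)) atTop atTop :=
    (tendsto_rpow_atTop (by norm_num)).comp
      ((Real.tendsto_logb_atTop one_lt_two).comp tendsto_natCast_atTop_atTop)
  obtain ⟨n, a1, a2, a3⟩ :=
    (h.and ((h1.eventually_gt_atTop (C / c)).and (eventually_ge_atTop 2))).exists
  have hn : (2 : ℝ) ≤ n := by exact_mod_cast a3
  have l1 : 0 < Real.logb 2 n := Real.logb_pos one_lt_two (by linarith)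
  have a4 := a1.trans (hC n a3).2
  rw [Real.rpow_sub l1, Real.rpow_one, ← mul_div_assoc, le_div_iff₀ (by positivity)] at a4
  rw [div_lt_iff₀ hc] at a2
  have : 0 < n * Real.logb 2 n := by positivity
  nlinarith

end Vale.Agent.P344
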