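import Vale.Agent.P344.Op

/-! The two local shear networks on triples. -/

namespace Vale.Agent.P344

open Finset Complex Matrix

set_option linter.unusedSectionVars false

section rk

variable {ι : Type} [Fintype ι] [DecidableEq ι]

theorem Rk.of_mod {J : Type} [Fintype J] {M : Matrix ι ι ℤ} (hM : M.IsSymm)
    (v : J → ι → ZMod 2) (h : ∀ i j, (M i j : ZMod 2) = ∑ l, v l i * v l j) :
    Rk M (Fintype.card J) := by
  let w : J → ι → ℤ := fun l i => (v l i).val
  have hd : ∀ i j, (2 : ℤ) ∣ M i j - ∑ l, w l i * w l j := by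
    intro i j
    refine (ZMod.intCast_zmod_eq_zero_iff_dvd _ 2).1 ?_
    push_cast
    simp [w, h]
  refine ⟨J, inferInstance, w, Matrix.of fun i j => (M i j - ∑ l, w l i * w l j) / 2,
    le_rfl, ?_, ?_⟩
  · ext i j
    simp only [transpose_apply, of_apply, hM.apply i j, mul_comm]
  · ext i j
    rw [Matrix.add_apply, Matrix.smul_apply]
    simp only [Matrix.sum_apply, vecMulVec_apply, nsmul_eq_mul, Nat.cast_ofNat, of_apply]
    rw [Int.mul_ediv_cancel' (hd i j)]; ring

theorem Rk.of_orth {M : Matrix ι ι ℤ} (hM : M.IsSymm) (Q : Matrix ι ι (ZMod 2))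
    (hQ : Q * Qᵀ = 1) (L : Finset ι)
    (h : ∀ i j, (M i j : ZMod 2) = (1 : Matrix ι ι (ZMod 2)) i j - ∑ l ∈ L, Q i l * Q j l) :
    Rk M (Fintype.card ι - L.card) := by
  have := Rk.of_mod (J := {l // l ∈ Lᶜ}) hM (fun l i => Q i l) fun i j => by
    rw [h, ← hQ, Matrix.mul_apply, ← Finset.sum_add_sum_compl L]
    simp only [transpose_apply, add_sub_cancel_left]
    exact (Finset.sum_coe_sort Lᶜ fun l => Q i l * Q j l).symm
  rwa [Fintype.card_coe, Finset.card_compl] at this

theorem Rk.sub_zero {M : Matrix ι ι ℤ} {r : ℕ} (h : Rk M r) : Rk (M - 0) r := by simpa using h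

theorem Rk.zero_sub {M : Matrix ι ι ℤ} {r : ℕ} (h : Rk M r) : Rk (0 - M) r := by
  simpa using h.neg

theorem Rk.one_sub {M : Matrix ι ι ℤ} {r : ℕ} (h : Rk M r) : Rk (1 - (1 - M)) r := by
  simpa using h

/-- A transvection. -/
def tv (q : ι → ZMod 2) : Matrix ι ι (ZMod 2) := 1 + vecMulVec q q

theorem tv_orth (q : ι → ZMod 2) (hq : q ⬝ᵥ q = 0) : tv q * (tv q)ᵀ = 1 := by
  simp only [tv, transpose_add, transpose_one, transpose_vecMulVec, mul_add, add_mul, mul_one,
    one_mul, vecMulVec_mul_vecMulVec, hq]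
  ext i j
  simp [add_assoc, zmod2_add_self]

theorem tv_mulVec (q u : ι → ZMod 2) : tv q *ᵥ u = u + (q ⬝ᵥ u) • q := by
  simp [tv, add_mulVec, vecMulVec_mulVec]

theorem add_self_vec (u : ι → ZMod 2) : u + u = 0 := by
  funext i; exact zmod2_add_self _

end rk

variable {h : ℕ}

/-- Triples. -/
abbrev Tr (h : ℕ) := {T : Finset (Fin h) // T.card = 3}

/-- Pairs of triples with even intersection. -/
abbrev Nb (h : ℕ) := {p : Tr h × Tr h // Even (p.1.1 ∩ p.2.1).card}

/-- Indicator vector. -/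
def ind (T : Tr h) : Fin h → ℤ := fun i => if i ∈ T.1 then 1 else 0

/-- Rank one label of a triple. -/
def PP (T : Tr h) : Matrix (Fin h) (Fin h) ℤ := vecMulVec (ind T) (ind T)

/-- Indicator vector modulo two. -/
def ind2 (T : Tr h) : Fin h → ZMod 2 := fun i => if i ∈ T.1 then 1 else 0

theorem ind2_dot (S T : Tr h) : ind2 S ⬝ᵥ ind2 T = ((S.1 ∩ T.1).card : ZMod 2) := by
  simp only [dotProduct, ind2, ite_mul, one_mul, zero_mul, ← ite_and, ← mem_inter]
  rw [Finset.sum_ite_mem, univ_inter]; simp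

theorem cast_PP (T : Tr h) (i j : Fin h) : (PP T i j : ZMod 2) = ind2 T i * ind2 T j := by
  simp [PP, ind, ind2, vecMulVec_apply]

theorem cast_one' (i j : Fin h) :
    (((1 : Matrix (Fin h) (Fin h) ℤ) i j : ℤ) : ZMod 2) =
      (1 : Matrix (Fin h) (Fin h) (ZMod 2)) i j := by
  simp only [Matrix.one_apply]; split_ifs <;> simp

theorem rk_PP (T : Tr h) : Rk (PP T) 1 := Rk.vv _

theorem exists_notMem (s : Finset (Fin h)) (hs : s.card < h) : ∃ j, j ∉ s := by
  by_contra hc
  push Not at hc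
  have : s = univ := Finset.eq_univ_of_forall hc
  simp [this] at hs

theorem tv_single (T : Tr h) (j : Fin h) (hj : j ∉ T.1) :
    (Pi.single j 1 + ind2 T) ⬝ᵥ (Pi.single j 1 + ind2 T) = 0 ∧
      tv (Pi.single j 1 + ind2 T) *ᵥ Pi.single j 1 = ind2 T := by
  have h1 : ind2 T j = 0 := by simp [ind2, hj]
  have h2 : ind2 T ⬝ᵥ ind2 T = 1 := by rw [ind2_dot, inter_self, T.2]; rfl
  constructor
  · simp [add_dotProduct, dotProduct_add, h1, h2, zmod2_add_self]
  · rw [tv_mulVec]
    simp [h1, ← add_assoc, add_self_vec]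

theorem rk_Q (hh : 8 ≤ h) (T : Tr h) : Rk (1 - PP T) (h - 1) := by
  obtain ⟨j, hj⟩ := exists_notMem T.1 (by rw [T.2]; omega)
  obtain ⟨h1, h2⟩ := tv_single T j hj
  have := Rk.of_orth (M := 1 - PP T) (isSymm_one.sub (isSymm_vv _)) _ (tv_orth _ h1) {j}
    fun a b => by
      have e : ∀ a, tv (Pi.single j 1 + ind2 T) a j = ind2 T a := fun a => by
        rw [← h2]; simp [h2]; simpa using congrFun h2 a
      simp only [Matrix.sub_apply, Int.cast_sub, cast_one', cast_PP, sum_singleton, e]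
  simpa using this

theorem rk_QP (hh : 8 ≤ h) (n : Nb h) : Rk (1 - PP n.1.1 - PP n.1.2) (h - 2) := by
  obtain ⟨⟨S, T⟩, hn⟩ := n
  have hc : (S.1 ∪ T.1).card ≤ 6 := (card_union_le _ _).trans (by rw [S.2, T.2])
  obtain ⟨j, hj⟩ := exists_notMem (S.1 ∪ T.1) (by omega)
  obtain ⟨k, hk⟩ := exists_notMem (insert j (S.1 ∪ T.1))
    (by have := card_insert_le j (S.1 ∪ T.1); omega)
  simp only [mem_insert, mem_union, not_or] at hj hk
  obtain ⟨h1, h2⟩ := tv_single S j hj.1
  obtain ⟨h3, h4⟩ := tv_single T k hk.2.2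
  have hST : ind2 S ⬝ᵥ ind2 T = 0 := by
    rw [ind2_dot]; exact (ZMod.natCast_eq_zero_iff_even).2 hn
  let Q := tv (Pi.single j 1 + ind2 S) * tv (Pi.single k 1 + ind2 T)
  have hQ : Q * Qᵀ = 1 := by
    simp only [Q, transpose_mul]
    rw [Matrix.mul_assoc, ← Matrix.mul_assoc (tv (Pi.single k 1 + ind2 T)), tv_orth _ h3,
      Matrix.one_mul, tv_orth _ h1]
  have c1 : Q *ᵥ Pi.single j 1 = ind2 S := by
    rw [← mulVec_mulVec, tv_mulVec (Pi.single k 1 + ind2 T)]
    simp [ind2, hj.2, Ne.symm hk.1, h2]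
  have c2 : Q *ᵥ Pi.single k 1 = ind2 T := by
    rw [← mulVec_mulVec, h4, tv_mulVec]
    simp [add_dotProduct, hST, show ind2 T j = 0 by simp [ind2, hj.2]]
  have := Rk.of_orth (M := 1 - PP S - PP T)
    ((isSymm_one.sub (isSymm_vv _)).sub (isSymm_vv _)) Q hQ {j, k} fun a b => by
      have e1 : ∀ a, Q a j = ind2 S a := fun a => by simpa using congrFun c1 a
      have e2 : ∀ a, Q a k = ind2 T a := fun a => by simpa using congrFun c2 a
      simp only [Matrix.sub_apply, Int.cast_sub, cast_one', cast_PP, sum_pair (Ne.symm hk.1),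
        e1, e2]
      rw [sub_sub]
  simpa [card_pair (Ne.symm hk.1)] using this

/-- Scatter coefficients. -/
noncomputable def sc (S : Tr h) (i : Fin h) : ℂ := (if i ∈ S.1 then 1 / 2 else 0) - 1 / 6

/-- Gather coefficients. -/
noncomputable def ga (i : Fin h) (T : Tr h) : ℂ := if i ∈ T.1 then 1 else 0

/-- Side coefficients. -/
noncomputable def ka (n : Nb h) : ℂ := (1 - ((n.1.1.1 ∩ n.1.2.1).card : ℂ)) / 2

theorem sc_ga (S T : Tr h) : ∑ i, sc S i * ga i T = (((S.1 ∩ T.1).card : ℂ) - 1) / 2 := by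
  have e : ∀ i, sc S i * ga i T =
      (if i ∈ S.1 ∩ T.1 then 1 / 2 else 0) - (if i ∈ T.1 then 1 / 6 else 0) := by
    intro i
    simp only [sc, ga, mem_inter]
    split_ifs <;> simp_all
  simp only [e, sum_sub_distrib, sum_ite_mem, univ_inter, sum_const, T.2, nsmul_eq_mul]
  push_cast; ring

theorem coeff_id (S T : Tr h) :
    ∑ i, sc S i * ga i T + ∑ n : Nb h, (if n.1 = (S, T) then ka n else 0) =
      if S = T then 1 else 0 := by
  rw [sc_ga]
  by_cases he : Even (S.1 ∩ T.1).card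
  · rw [Finset.sum_eq_single (⟨(S, T), he⟩ : Nb h) (fun n _ hn => if_neg fun e => hn (Subtype.ext e))
      (by simp), if_pos rfl, if_neg]
    · simp only [ka]; ring
    · rintro rfl
      rw [inter_self, S.2] at he; exact absurd he (by decide)
  · rw [Finset.sum_eq_zero (fun n _ => if_neg fun e => he (by have := n.2; rwa [e] at this)),
      add_zero]
    have h3 : (S.1 ∩ T.1).card ≤ 3 := (card_le_card inter_subset_left).trans S.2.le
    by_cases hST : S = T
    · subst hST; rw [inter_self, S.2]; norm_num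
    · have : (S.1 ∩ T.1).card ≠ 3 := by
        intro e
        apply hST
        have a1 := Finset.eq_of_subset_of_card_le (inter_subset_left (s₁ := S.1) (s₂ := T.1))
          (by rw [e, S.2])
        have a2 := Finset.eq_of_subset_of_card_le (inter_subset_right (s₁ := S.1) (s₂ := T.1))
          (by rw [e, T.2])
        exact Subtype.ext (a1.symm.trans a2)
      have : (S.1 ∩ T.1).card = 1 := by
        rw [Nat.not_even_iff_odd] at he
        obtain ⟨k, hk⟩ := he
        omega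
      simp [this, hST]

variable {V : Type} [AddCommGroup V] [Module ℂ V]

/-- The values on all wires of the local network. -/
def St (x y : Tr h → Set V) (a : Nb h → Set V) (z : Fin h → Set V) : Set V :=
  (⋃ T, x T) ∪ (⋃ T, y T) ∪ (⋃ n, a n) ∪ ⋃ i, z i

/-- Reverse inclusion. -/
def Sup (S Q : Set V) : Prop := Q ⊆ S

theorem so {S Q : Set V} (h : Sup S Q) : Q ⊆ S := h

theorem ul {S Q R : Set V} (h : Sup S Q) : Q ⊆ S ∪ R := Set.subset_union_of_subset_left h _

section St
variable {x y : Tr h → Set V} {a : Nb h → Set V} {z : Fin h → Set V}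

theorem St.hx (T : Tr h) : Sup (St x y a z) (x T) := fun _ hv =>
  Or.inl (Or.inl (Or.inl (Set.mem_iUnion.2 ⟨T, hv⟩)))
theorem St.hy (T : Tr h) : Sup (St x y a z) (y T) := fun _ hv =>
  Or.inl (Or.inl (Or.inr (Set.mem_iUnion.2 ⟨T, hv⟩)))
theorem St.ha (n : Nb h) : Sup (St x y a z) (a n) := fun _ hv =>
  Or.inl (Or.inr (Set.mem_iUnion.2 ⟨n, hv⟩))
theorem St.hz (i : Fin h) : Sup (St x y a z) (z i) := fun _ hv => Or.inr (Set.mem_iUnion.2 ⟨i, hv⟩)

theorem St.step {S : Set V} {c1 c2 c3 c4 : ℕ} (h1 : ∀ T, Can S c1 (x T))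
    (h2 : ∀ T, Can S c2 (y T)) (h3 : ∀ n, Can S c3 (a n)) (h4 : ∀ i, Can S c4 (z i)) :
    Can S (Fintype.card (Tr h) * c1 + Fintype.card (Tr h) * c2 + Fintype.card (Nb h) * c3 +
      h * c4) (St x y a z) := by
  simpa [St] using (((Can.iUnion h1).union (Can.iUnion h2)).union (Can.iUnion h3)).union
    (Can.iUnion h4)

end St

variable {ι : Type} [Fintype ι] [DecidableEq ι]

/-- The physical array of a logical array `u` in the frame with label `M`. -/
def Ph (f : ℕ) (M : Matrix ι ι ℤ) (u : (ι × Fin f → ZMod 2) → V) : Set V :=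
  Set.range (act (O f M) u)

theorem Ph.lin {f : ℕ} {M : Matrix ι ι ℤ} {S : Set V} {J : Type} [Fintype J] (c : J → ℂ)
    (u0 : (ι × Fin f → ZMod 2) → V) (u : J → (ι × Fin f → ZMod 2) → V) (h0 : Ph f M u0 ⊆ insert 0 S)
    (hu : ∀ j, Ph f M (u j) ⊆ S) :
    Can S (2 ^ (Fintype.card ι * f) * (2 * Fintype.card J + 1))
      (Ph f M (u0 + ∑ j, c j • u j)) := by
  have := Can.range (S := S) (u := act (O f M) (u0 + ∑ j, c j • u j))
    (c := 2 * Fintype.card J + 1) fun ω => by
      have e : act (O f M) (u0 + ∑ j, c j • u j) ω =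
          act (O f M) u0 ω + ∑ j, c j • act (O f M) (u j) ω := by
        simp only [act, Pi.add_apply, Finset.sum_apply, Pi.smul_apply, smul_add, sum_add_distrib,
          Finset.smul_sum, smul_comm (c _)]
        rw [Finset.sum_comm]
      rw [e]
      refine (Can.sum univ c (fun j => act (O f M) (u j) ω) fun j _ => hu j ⟨ω, rfl⟩).trans
        (Can.step ⟨act (O f M) u0 ω, ?_, _, by simp, Or.inl rfl⟩)
      rcases h0 ⟨ω, rfl⟩ with e | e
      · exact Or.inl e
      · exact Or.inr (Or.inl e)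
  simpa [Ph] using this

theorem Ph.zero {f : ℕ} {M : Matrix ι ι ℤ} {S : Set V} :
    Ph f M (0 : (ι × Fin f → ZMod 2) → V) ⊆ insert 0 S := by
  rintro _ ⟨ω, rfl⟩; left; simp [act]

theorem Ph.lin1 {f : ℕ} {M : Matrix ι ι ℤ} {S : Set V} (c : ℂ)
    (u0 u : (ι × Fin f → ZMod 2) → V) (h0 : Ph f M u0 ⊆ insert 0 S) (hu : Ph f M u ⊆ S) :
    Can S (2 ^ (Fintype.card ι * f) * 3) (Ph f M (u0 + c • u)) := by
  simpa using Ph.lin (J := Unit) (fun _ => c) u0 (fun _ => u) h0 fun _ => hu

theorem Ph.move {f p r : ℕ} (hp : Pass ι f p) {M M' : Matrix ι ι ℤ} (hr : Rk (M' - M) r)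
    {u : (ι × Fin f → ZMod 2) → V} {S : Set V} (hS : Ph f M u ⊆ S) :
    Can S (r * p) (Ph f M' u) := (hp.move hr u).monoS hS

theorem sub_ins {S Q : Set V} (h : Q ⊆ S) : Q ⊆ insert 0 S := h.trans (Set.subset_insert _ _)

/-- Number of passes in a local network. -/
def locR (h : ℕ) : ℕ := 2 * Fintype.card (Tr h) * (h - 1) + Fintype.card (Nb h) * h + h * h

/-- Number of scalar gates per array entry in a local network. -/
def locK (h : ℕ) : ℕ :=
  Fintype.card (Tr h) * (4 * Fintype.card (Nb h) + 2 * h + 3) + 6 * Fintype.card (Nb h) +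
    h * (2 * Fintype.card (Tr h) + 1)

section loc

variable (hh : 8 ≤ h) {f p : ℕ} (hp : Pass ι f p) (B : Matrix ι ι ℤ)
  (L : Matrix (Fin h) (Fin h) ℤ →+ Matrix ι ι ℤ) (hL : ∀ M r, Rk M r → Rk (L M) r)
  (X Y : Tr h → (ι × Fin f → ZMod 2) → V) (A : Nb h → (ι × Fin f → ZMod 2) → V)

include hL in
theorem rk_lab {M M' : Matrix (Fin h) (Fin h) ℤ} {r : ℕ} (hr : Rk (M' - M) r) :
    Rk (B + L M' - (B + L M)) r := by
  rw [add_sub_add_left_eq_sub, ← map_sub]; exact hL _ _ hr

include hh hp hL in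
theorem shear1 : Can (St (fun T => Ph f (B + L (PP T)) (X T)) (fun S => Ph f (B + L 0) (Y S))
      (fun n => Ph f (B + L 0) (A n)) fun _ => ∅)
    (locR h * p + locK h * 2 ^ (Fintype.card ι * f))
    (St (fun T => Ph f (B + L 1) (X T)) (fun S => Ph f (B + L (1 - PP S)) (Y S + X S))
      (fun n => Ph f (B + L 1) (A n)) fun _ => ∅) := by
  classical
  have hI : Rk (1 : Matrix (Fin h) (Fin h) ℤ) h := by simpa using Rk.one (ι := Fin h)
  let κ : Tr h → Nb h → ℂ := fun S n => if n.1.1 = S then ka n else 0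
  let Y1 := fun S => Y S + ∑ n, (-κ S n) • A n
  let A1 := fun n : Nb h => A n + (1 : ℂ) • X n.1.2
  let Z1 := fun i => 0 + ∑ T, ga i T • X T
  let Y2 := fun S => Y1 S + ∑ i, sc S i • Z1 i
  let Y3 := fun S => Y2 S + ∑ n, κ S n • A1 n
  have hY3 : ∀ S, Y3 S = Y S + X S := by
    intro S
    have e : X S = ∑ T, (if S = T then (1 : ℂ) else 0) • X T := by simp
    rw [e]
    simp only [Y3, Y2, Y1, Z1, A1, ← coeff_id, smul_add, sum_add_distrib, add_smul, zero_add,
      Finset.smul_sum, Finset.sum_smul, neg_smul, sum_neg_distrib, one_smul, smul_smul]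
    have e2 : ∑ n, κ S n • X n.1.2 =
        ∑ T, ∑ n : Nb h, (if n.1 = (S, T) then ka n else 0) • X T := by
      rw [Finset.sum_comm]
      refine Finset.sum_congr rfl fun n _ => ?_
      rw [Finset.sum_eq_single n.1.2 (fun T _ hT => by
        rw [if_neg (fun e => hT (by rw [e])), zero_smul]) (by simp)]
      simp [κ, Prod.ext_iff]
    rw [e2, Finset.sum_comm (s := (univ : Finset (Fin h)))]
    abel
  have hA : ∀ n : Nb h, A1 n + (-1 : ℂ) • X n.1.2 = A n := by intro n; simp [A1]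
  have s1 := St.step (S := St (fun T => Ph f (B + L (PP T)) (X T))
      (fun S => Ph f (B + L 0) (Y S)) (fun n => Ph f (B + L 0) (A n)) fun _ => ∅)
    (x := fun T => Ph f (B + L 1) (X T)) (y := fun S => Ph f (B + L 0) (Y1 S))
    (a := fun n => Ph f (B + L (PP n.1.2)) (A1 n)) (z := fun _ => ∅) (c4 := 0)
    (fun T => Ph.move hp (rk_lab B L hL (rk_Q hh T)) (so (St.hx T)))
    (fun S => Ph.lin _ _ _ (sub_ins (so (St.hy S))) fun n => so (St.ha n))
    (fun n => (Ph.move hp (rk_lab B L hL (rk_PP n.1.2).sub_zero) (so (St.ha n))).trans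
      (Ph.lin1 _ _ _ (sub_ins Set.subset_union_right)
        (ul (St.hx n.1.2))))
    (fun _ => Can.of_subset' (Set.empty_subset _))
  have s2 := St.step (S := St (fun T => Ph f (B + L 1) (X T)) (fun S => Ph f (B + L 0) (Y1 S))
      (fun n => Ph f (B + L (PP n.1.2)) (A1 n)) fun _ => ∅)
    (x := fun T => Ph f (B + L 1) (X T)) (y := fun S => Ph f (B + L 0) (Y1 S))
    (a := fun n => Ph f (B + L (1 - PP n.1.1)) (A1 n)) (z := fun i => Ph f (B + L 0) (Z1 i))
    (fun T => Can.of_subset' (so (St.hx T))) (fun S => Can.of_subset' (so (St.hy S)))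
    (fun n => Ph.move hp (rk_lab B L hL (rk_QP hh n)) (so (St.ha n)))
    (fun i => (Ph.lin (M := B + L 1) _ _ _ Ph.zero fun T => so (St.hx T)).trans'
      (Ph.move hp (rk_lab B L hL hI.zero_sub) le_rfl))
  have s3 := St.step (S := St (fun T => Ph f (B + L 1) (X T)) (fun S => Ph f (B + L 0) (Y1 S))
      (fun n => Ph f (B + L (1 - PP n.1.1)) (A1 n)) fun i => Ph f (B + L 0) (Z1 i))
    (x := fun T => Ph f (B + L 1) (X T)) (y := fun S => Ph f (B + L (1 - PP S)) (Y3 S))
    (a := fun n => Ph f (B + L 1) (A1 n + (-1 : ℂ) • X n.1.2)) (z := fun _ => ∅) (c4 := 0)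
    (fun T => Can.of_subset' (so (St.hx T)))
    (fun S => (((Ph.lin _ _ _ (sub_ins (so (St.hy S))) fun i => so (St.hz i)).trans'
      (Ph.move hp (rk_lab B L hL (rk_Q hh S).sub_zero) le_rfl)).trans
      (c' := 2 ^ (Fintype.card ι * f) * (2 * Fintype.card (Nb h) + 1)) (by
        have e : Y3 S = Y2 S + ∑ n : {n : Nb h // n.1.1 = S}, ka n.1 • A1 n.1 := by
          simp only [Y3, κ, ite_smul, zero_smul]
          rw [← Finset.sum_filter, Finset.sum_subtype (p := fun n : Nb h => n.1.1 = S) _ (by simp)]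
        rw [e]
        refine (Ph.lin _ _ _ (sub_ins Set.subset_union_right) fun n => ?_).monoC ?_
        · obtain ⟨n, rfl⟩ := n
          exact ul (St.ha n)
        · gcongr; exact Fintype.card_subtype_le _)))
    (fun n => (Ph.move hp (rk_lab B L hL (rk_PP n.1.1).one_sub) (so (St.ha n))).trans
      (Ph.lin1 _ _ _ (sub_ins Set.subset_union_right)
        (ul (St.hx n.1.2))))
    (fun _ => Can.of_subset' (Set.empty_subset _))
  simp only [hY3, hA] at s3
  refine ((s1.trans' s2).trans' s3).monoC (le_of_eq ?_)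
  obtain ⟨k, rfl⟩ : ∃ k, h = k + 2 := ⟨h - 2, by omega⟩
  simp only [locR, locK, Fintype.card_fin, Nat.add_sub_cancel,
    show k + 2 - 1 = k + 1 from rfl]
  ring

include hh hp hL in
theorem shear2 : Can (St (fun T => Ph f (B + L (PP T)) (X T)) (fun S => Ph f (B + L 0) (Y S))
      (fun n => Ph f (B + L 0) (A n)) fun _ => ∅)
    (locR h * p + locK h * 2 ^ (Fintype.card ι * f))
    (St (fun T => Ph f (B + L 1) (X T - Y T)) (fun S => Ph f (B + L (1 - PP S)) (Y S))
      (fun n => Ph f (B + L 1) (A n)) fun _ => ∅) := by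
  classical
  have hI : Rk (1 : Matrix (Fin h) (Fin h) ℤ) h := by simpa using Rk.one (ι := Fin h)
  let κ : Tr h → Nb h → ℂ := fun T n => if n.1.2 = T then ka n else 0
  let A1 := fun n : Nb h => A n + (1 : ℂ) • Y n.1.1
  let Z1 := fun i => 0 + ∑ S, sc S i • Y S
  let X1 := fun T => X T + ∑ n, (-κ T n) • A1 n
  let X2 := fun T => X1 T + ∑ i, (-ga i T) • Z1 i
  let X3 := fun T => X2 T + ∑ n, κ T n • A n
  have hX3 : ∀ T, X3 T = X T - Y T := by
    intro T
    have e : Y T = ∑ S, (if S = T then (1 : ℂ) else 0) • Y S := by simp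
    rw [e]
    simp only [X3, X2, X1, Z1, A1, ← coeff_id, smul_add, sum_add_distrib, add_smul, zero_add,
      Finset.smul_sum, Finset.sum_smul, neg_smul, sum_neg_distrib, one_smul, smul_smul,
      neg_mul, mul_comm (ga _ _)]
    have e2 : ∑ n, κ T n • Y n.1.1 =
        ∑ S, ∑ n : Nb h, (if n.1 = (S, T) then ka n else 0) • Y S := by
      rw [Finset.sum_comm]
      refine Finset.sum_congr rfl fun n _ => ?_
      rw [Finset.sum_eq_single n.1.1 (fun S _ hS => by
        rw [if_neg (fun e => hS (by rw [e])), zero_smul]) (by simp)]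
      simp [κ, Prod.ext_iff]
    rw [e2, Finset.sum_comm (s := (univ : Finset (Fin h)))]
    abel
  have hA : ∀ n : Nb h, A1 n + (-1 : ℂ) • Y n.1.1 = A n := by intro n; simp [A1]
  have s1 := St.step (S := St (fun T => Ph f (B + L (PP T)) (X T))
      (fun S => Ph f (B + L 0) (Y S)) (fun n => Ph f (B + L 0) (A n)) fun _ => ∅)
    (x := fun T => Ph f (B + L (PP T)) (X T)) (y := fun S => Ph f (B + L (1 - PP S)) (Y S))
    (a := fun n => Ph f (B + L (PP n.1.2)) (A1 n)) (z := fun i => Ph f (B + L 1) (Z1 i))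
    (fun T => Can.of_subset' (so (St.hx T)))
    (fun S => Ph.move hp (rk_lab B L hL (rk_Q hh S).sub_zero) (so (St.hy S)))
    (fun n => (Ph.lin1 _ _ _ (sub_ins (so (St.ha n))) (so (St.hy n.1.1))).trans'
      (Ph.move hp (rk_lab B L hL (rk_PP n.1.2).sub_zero) le_rfl))
    (fun i => (Ph.lin (M := B + L 0) _ _ _ Ph.zero fun S => so (St.hy S)).trans'
      (Ph.move hp (rk_lab B L hL hI.sub_zero) le_rfl))
  have s2 := St.step (S := St (fun T => Ph f (B + L (PP T)) (X T))
      (fun S => Ph f (B + L (1 - PP S)) (Y S)) (fun n => Ph f (B + L (PP n.1.2)) (A1 n))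
      fun i => Ph f (B + L 1) (Z1 i))
    (x := fun T => Ph f (B + L 1) (X2 T)) (y := fun S => Ph f (B + L (1 - PP S)) (Y S))
    (a := fun n => Ph f (B + L 1) (A1 n + (-1 : ℂ) • Y n.1.1)) (z := fun _ => ∅) (c4 := 0)
    (fun T => Can.trans (Can.trans' (Q := Ph f (B + L (PP T)) (X1 T))
      (c := 2 ^ (Fintype.card ι * f) * (2 * Fintype.card (Nb h) + 1)) (by
        have e : X1 T = X T + ∑ n : {n : Nb h // n.1.2 = T}, (-ka n.1) • A1 n.1 := by
          simp only [X1, κ, neg_smul, ite_smul, zero_smul, sum_neg_distrib]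
          rw [← Finset.sum_filter, Finset.sum_subtype (p := fun n : Nb h => n.1.2 = T) _ (by simp)]
        rw [e]
        refine (Ph.lin _ _ _ (sub_ins (so (St.hx T))) fun n => ?_).monoC ?_
        · obtain ⟨n, rfl⟩ := n
          exact so (St.ha n)
        · gcongr; exact Fintype.card_subtype_le _)
      (Ph.move hp (rk_lab B L hL (rk_Q hh T)) le_rfl))
      (Ph.lin _ _ _ (sub_ins Set.subset_union_right) fun i =>
        ul (St.hz i)))
    (fun S => Can.of_subset' (so (St.hy S)))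
    (fun n => ((Ph.move hp (rk_lab B L hL (rk_QP hh n)) (so (St.ha n))).trans
      (Ph.lin1 _ _ _ (sub_ins Set.subset_union_right)
        (ul (St.hy n.1.1)))).trans'
      (Ph.move hp (rk_lab B L hL (rk_PP n.1.1).one_sub) le_rfl))
    (fun _ => Can.of_subset' (Set.empty_subset _))
  simp only [hA] at s2
  have s3 := St.step (S := St (fun T => Ph f (B + L 1) (X2 T))
      (fun S => Ph f (B + L (1 - PP S)) (Y S)) (fun n => Ph f (B + L 1) (A n)) fun _ => ∅)
    (x := fun T => Ph f (B + L 1) (X3 T)) (y := fun S => Ph f (B + L (1 - PP S)) (Y S))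
    (a := fun n => Ph f (B + L 1) (A n)) (z := fun _ => ∅) (c4 := 0)
    (fun T => Ph.lin _ _ _ (sub_ins (so (St.hx T))) fun n => so (St.ha n))
    (fun S => Can.of_subset' (so (St.hy S))) (fun n => Can.of_subset' (so (St.ha n)))
    (fun _ => Can.of_subset' (Set.empty_subset _))
  simp only [hX3] at s3
  refine ((s1.trans' s2).trans' s3).monoC (le_of_eq ?_)
  obtain ⟨k, rfl⟩ : ∃ k, h = k + 2 := ⟨h - 2, by omega⟩
  simp only [locR, locK, Fintype.card_fin, Nat.add_sub_cancel,
    show k + 2 - 1 = k + 1 from rfl]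
  ring

end loc

end Vale.Agent.P344
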