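import Vale.Agent.P344.Can

/-! Chirp frames on Boolean cubes. -/

namespace Vale.Agent.P344

open Finset Complex Matrix

set_option linter.unusedSectionVars false

/-- The entries of the square root of the swap. -/
noncomputable def cc (t : ZMod 2) : ℂ := if t = 0 then (1 + I) / 2 else (1 - I) / 2

/-- The sign character of `ZMod 2`. -/
def sg (t : ZMod 2) : ℂ := if t = 0 then 1 else -1

theorem zmod2_cases (t : ZMod 2) : t = 0 ∨ t = 1 := by revert t; decide

theorem sum_zmod2 {M : Type} [AddCommMonoid M] (g : ZMod 2 → M) : ∑ t, g t = g 0 + g 1 :=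
  Fin.sum_univ_two g

theorem zmod2_add_self (t : ZMod 2) : t + t = 0 := by revert t; decide

theorem sg_add (s t : ZMod 2) : sg (s + t) = sg s * sg t := by
  rcases zmod2_cases s with rfl | rfl <;> rcases zmod2_cases t with rfl | rfl <;>
    simp [sg, zmod2_add_self]

theorem sg_zero : sg 0 = 1 := by simp [sg]

theorem sg_sum {ι : Type} (s : Finset ι) (g : ι → ZMod 2) :
    sg (∑ i ∈ s, g i) = ∏ i ∈ s, sg (g i) := by
  classical
  induction s using Finset.induction_on with
  | empty => simp [sg_zero]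
  | insert a s ha ih => rw [sum_insert ha, prod_insert ha, sg_add, ih]

theorem cc_add : cc 0 + cc 1 = 1 := by simp [cc]; ring

/-- The tensor power of the square root of the swap. -/
noncomputable def CK (κ : Type) [Fintype κ] : Matrix (κ → ZMod 2) (κ → ZMod 2) ℂ :=
  fun x y => ∏ b, cc (x b + y b)

variable {V : Type} [AddCommGroup V] [Module ℂ V]

theorem can_orbit {κ Ω R : Type} [Fintype κ] [DecidableEq κ] [Fintype R] {c : ℕ}
    (hc : MC (CK κ) c) (ρ : (κ → ZMod 2) → Ω → Ω) (hρ : ∀ s t ω, ρ (s + t) ω = ρ s (ρ t ω))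
    (rep : R → Ω) (x : Ω → V) :
    Can (Set.range x) (Fintype.card R * c)
      (⋃ r, Set.range fun t => ∑ s, (∏ b, cc (s b)) • x (ρ s (ρ t (rep r)))) := by
  refine Can.iUnion fun r => (hc V fun s => x (ρ s (rep r))).mono ?_ le_rfl ?_
  · rintro _ ⟨s, rfl⟩; exact Or.inr ⟨_, rfl⟩
  · rintro _ ⟨t, rfl⟩
    refine ⟨t, ?_⟩
    simp only [act, CK]
    rw [← Equiv.sum_comp (Equiv.addRight t)]
    refine Finset.sum_congr rfl fun s _ => ?_
    rw [← hρ]
    congr 1
    refine Finset.prod_congr rfl fun b _ => ?_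
    simp only [Equiv.coe_addRight, Pi.add_apply]
    rw [add_comm (s b), ← add_assoc, zmod2_add_self, zero_add]

variable {κ : Type} [Fintype κ] [DecidableEq κ]

/-- Characters of the cube. -/
def chr (x y : κ → ZMod 2) : ℂ := sg (∑ b, x b * y b)

theorem chr_comm (x y : κ → ZMod 2) : chr x y = chr y x := by simp [chr, mul_comm]

theorem chr_add (x y z : κ → ZMod 2) : chr (x + y) z = chr x z * chr y z := by
  simp [chr, add_mul, sum_add_distrib, sg_add]

theorem sum_chr (x : κ → ZMod 2) :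
    ∑ z, chr x z = if x = 0 then (2 : ℂ) ^ Fintype.card κ else 0 := by
  simp only [chr, sg_sum]
  rw [← Fintype.prod_sum (fun b t => sg (x b * t))]
  simp only [sum_zmod2, mul_zero, mul_one, sg_zero]
  split_ifs with h
  · subst h; simp [sg_zero]; norm_num
  · obtain ⟨b, hb⟩ := Function.ne_iff.1 h
    exact Finset.prod_eq_zero (mem_univ b) (by simp [sg, show x b ≠ 0 from hb])

theorem add_eq_zero_iff (x y : κ → ZMod 2) : x + y = 0 ↔ y = x := by
  constructor
  · intro h
    funext b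
    have := congrFun h b
    simp only [Pi.add_apply, Pi.zero_apply] at this
    rw [← zero_add (y b), ← zmod2_add_self (x b), add_assoc, this, add_zero]
  · rintro rfl; funext b; exact zmod2_add_self _

/-- The operator with Fourier multiplier `φ`. -/
noncomputable def Op (φ : (κ → ZMod 2) → ℂ) : Matrix (κ → ZMod 2) (κ → ZMod 2) ℂ :=
  fun x y => ((2 : ℂ) ^ Fintype.card κ)⁻¹ * ∑ z, φ z * chr (x + y) z

theorem Op_mul (φ ψ : (κ → ZMod 2) → ℂ) : Op φ * Op ψ = Op (φ * ψ) := by
  ext x y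
  simp only [Matrix.mul_apply, Op, Pi.mul_apply]
  have h2 : ((2 : ℂ) ^ Fintype.card κ) ≠ 0 := pow_ne_zero _ two_ne_zero
  have e : ∀ u, (((2 : ℂ) ^ Fintype.card κ)⁻¹ * ∑ z, φ z * chr (x + u) z) *
      (((2 : ℂ) ^ Fintype.card κ)⁻¹ * ∑ z, ψ z * chr (u + y) z) =
      ∑ z, ∑ w, ((2 : ℂ) ^ Fintype.card κ)⁻¹ * (((2 : ℂ) ^ Fintype.card κ)⁻¹ *
        (φ z * ψ w * chr x z * chr y w)) * chr (z + w) u := by
    intro u
    rw [mul_mul_mul_comm, Finset.sum_mul_sum, Finset.mul_sum]
    refine Finset.sum_congr rfl fun z _ => ?_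
    rw [Finset.mul_sum]
    refine Finset.sum_congr rfl fun w _ => ?_
    rw [chr_add, chr_add, chr_add, chr_comm u z, chr_comm u w]; ring
  simp only [e]
  rw [Finset.sum_comm, Finset.mul_sum]
  refine Finset.sum_congr rfl fun z _ => ?_
  rw [Finset.sum_comm]
  simp only [← Finset.mul_sum, sum_chr, add_eq_zero_iff]
  rw [Finset.sum_eq_single z (by simp +contextual) (by simp), if_pos rfl, chr_add]
  field_simp

theorem act_Op_sum {J : Type} [Fintype J] (a : J → ℂ) (w : J → κ → ZMod 2)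
    (x : (κ → ZMod 2) → V) (ω : κ → ZMod 2) :
    act (Op fun z => ∑ s, a s * chr (w s) z) x ω = ∑ s, a s • x (w s + ω) := by
  have h2 : ((2 : ℂ) ^ Fintype.card κ) ≠ 0 := pow_ne_zero _ two_ne_zero
  have e : ∀ y, Op (fun z => ∑ s, a s * chr (w s) z) ω y =
      ∑ s, if y = w s + ω then a s else 0 := by
    intro y
    simp only [Op, Finset.sum_mul, mul_assoc, ← chr_add]
    rw [Finset.sum_comm, Finset.mul_sum]
    refine Finset.sum_congr rfl fun s _ => ?_
    rw [← Finset.mul_sum, sum_chr, ← add_assoc]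
    simp only [add_eq_zero_iff]
    split_ifs
    · field_simp
    · simp
  simp only [act, e, Finset.sum_smul]
  rw [Finset.sum_comm]
  simp

theorem act_Op_chr (w : κ → ZMod 2) (x : (κ → ZMod 2) → V) (ω : κ → ZMod 2) :
    act (Op (chr w)) x ω = x (w + ω) := by
  simpa using act_Op_sum (J := Unit) (fun _ => 1) (fun _ => w) x ω

theorem act_Op_one (x : (κ → ZMod 2) → V) : act (Op 1) x = x := by
  funext ω
  have : (1 : (κ → ZMod 2) → ℂ) = chr 0 := by funext z; simp [chr, sg_zero]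
  rw [this, act_Op_chr, zero_add]

theorem act_Op_all (x : (κ → ZMod 2) → V) :
    act (Op fun z => ∏ b, (cc 0 + cc 1 * sg (z b))) x = act (CK κ) x := by
  funext ω
  have e : (fun z : κ → ZMod 2 => ∏ b, (cc 0 + cc 1 * sg (z b))) =
      fun z => ∑ s : κ → ZMod 2, (∏ b, cc (s b)) * chr s z := by
    funext z
    simp only [chr, sg_sum, ← Finset.prod_mul_distrib]
    rw [← Fintype.prod_sum (fun b t => cc t * sg (t * z b))]
    simp [sum_zmod2, sg_zero]
  rw [e, act_Op_sum]
  simp only [act, CK]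
  rw [← Equiv.sum_comp (Equiv.addRight ω) (fun j => (∏ b, cc (ω b + j b)) • x j)]
  refine Finset.sum_congr rfl fun s _ => ?_
  congr 1
  refine Finset.prod_congr rfl fun b _ => ?_
  simp only [Equiv.coe_addRight, Pi.add_apply]
  rw [add_comm (s b), ← add_assoc, zmod2_add_self, zero_add]

variable {ι : Type} [Fintype ι] [DecidableEq ι]

/-- The integral quadratic form of a label. -/
def qf (M : Matrix ι ι ℤ) (z : ι → ZMod 2) : ℤ :=
  ∑ i, ∑ j, ((z i).val : ℤ) * M i j * ((z j).val : ℤ)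

/-- The multiplier of a label. -/
noncomputable def ph (f : ℕ) (M : Matrix ι ι ℤ) (z : ι × Fin f → ZMod 2) : ℂ :=
  ∏ c : Fin f, I ^ qf M fun i => z (i, c)

/-- The frame of a label. -/
noncomputable def O (f : ℕ) (M : Matrix ι ι ℤ) :
    Matrix (ι × Fin f → ZMod 2) (ι × Fin f → ZMod 2) ℂ := Op (ph f M)

theorem ph_add (f : ℕ) (M N : Matrix ι ι ℤ) : ph f (M + N) = ph f M * ph f N := by
  funext z
  simp only [ph, qf, Pi.mul_apply, ← Finset.prod_mul_distrib, Matrix.add_apply, mul_add, add_mul,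
    sum_add_distrib, zpow_add₀ I_ne_zero]

theorem act_O_add (f : ℕ) (M N : Matrix ι ι ℤ) (x : (ι × Fin f → ZMod 2) → V) :
    act (O f (M + N)) x = act (O f M) (act (O f N) x) := by
  rw [O, ph_add, ← Op_mul, act_mul]; rfl

theorem act_O_zero (f : ℕ) (x : (ι × Fin f → ZMod 2) → V) :
    act (O f (0 : Matrix ι ι ℤ)) x = x := by
  have : ph f (0 : Matrix ι ι ℤ) = 1 := by funext z; simp [ph, qf]
  rw [O, this, act_Op_one]

theorem I_zpow_sq (n : ℤ) : I ^ (n * n) = cc 0 + cc 1 * sg (n : ZMod 2) := by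
  have h4 : ∀ k : ℤ, I ^ (4 * k) = 1 := fun k => by
    rw [_root_.zpow_mul]; norm_num
  rcases Int.even_or_odd' n with ⟨k, rfl | rfl⟩
  · have : ((2 * k : ℤ) : ZMod 2) = 0 := by push_cast; exact mul_eq_zero_of_left rfl _
    rw [this, sg_zero, mul_one, cc_add, show 2 * k * (2 * k) = 4 * (k * k) by ring, h4]
  · have : ((2 * k + 1 : ℤ) : ZMod 2) = 1 := by
      push_cast; rw [mul_eq_zero_of_left (show (2 : ZMod 2) = 0 from rfl), zero_add]
    rw [this, show (2 * k + 1) * (2 * k + 1) = 4 * (k * k + k) + 1 by ring,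
      zpow_add₀ I_ne_zero, h4]
    simp [cc, sg]; ring

theorem I_zpow_two_mul (n : ℤ) : I ^ (2 * n) = sg (n : ZMod 2) := by
  rw [_root_.zpow_mul]
  have h1 : I ^ (2 : ℤ) = -1 := by norm_num
  rw [h1]
  rcases Int.even_or_odd' n with ⟨k, rfl | rfl⟩
  · have : ((2 * k : ℤ) : ZMod 2) = 0 := by push_cast; exact mul_eq_zero_of_left rfl _
    rw [this, sg_zero, _root_.zpow_mul]; norm_num
  · have : ((2 * k + 1 : ℤ) : ZMod 2) = 1 := by
      push_cast; rw [mul_eq_zero_of_left (show (2 : ZMod 2) = 0 from rfl), zero_add]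
    rw [this, zpow_add₀ (by norm_num), _root_.zpow_mul]
    simp [sg]

theorem ph_vv (f : ℕ) (v : ι → ℤ) (z : ι × Fin f → ZMod 2) :
    ph f (vecMulVec v v) z = ∏ c : Fin f, (cc 0 + cc 1 * sg (∑ i, (v i : ZMod 2) * z (i, c))) := by
  refine Finset.prod_congr rfl fun c _ => ?_
  have e : qf (vecMulVec v v) (fun i => z (i, c)) =
      (∑ i, v i * ((z (i, c)).val : ℤ)) * (∑ i, v i * ((z (i, c)).val : ℤ)) := by
    simp only [qf, vecMulVec_apply, Finset.sum_mul_sum]
    refine Finset.sum_congr rfl fun i _ => Finset.sum_congr rfl fun j _ => by ring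
  rw [e, I_zpow_sq]
  push_cast
  simp

theorem act_O_one (f : ℕ) (x : (ι × Fin f → ZMod 2) → V) :
    act (O f (1 : Matrix ι ι ℤ)) x = act (CK (ι × Fin f)) x := by
  rw [← act_Op_all, O]
  congr 2
  funext z
  rw [ph, Fintype.prod_prod_type_right]
  refine Finset.prod_congr rfl fun c _ => ?_
  have e : qf (1 : Matrix ι ι ℤ) (fun i => z (i, c)) =
      ∑ i, ((z (i, c)).val : ℤ) * ((z (i, c)).val : ℤ) := by
    simp [qf, Matrix.one_apply]
  rw [e]
  have : ∀ s : Finset ι, I ^ (∑ i ∈ s, ((z (i, c)).val : ℤ) * ((z (i, c)).val : ℤ)) =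
      ∏ i ∈ s, (cc 0 + cc 1 * sg (z (i, c))) := by
    intro s
    induction s using Finset.induction_on with
    | empty => simp
    | insert a s ha ih =>
      rw [sum_insert ha, prod_insert ha, zpow_add₀ I_ne_zero, ih, I_zpow_sq]; simp
  exact this _

theorem sum_symm_zmod2 (g : ι → ι → ZMod 2) (hg : ∀ i j, g i j = g j i) :
    ∑ i, ∑ j, g i j = ∑ i, g i i := by
  rw [← Finset.sum_product', ← Finset.diag_union_offDiag,
    Finset.sum_union (Finset.disjoint_diag_offDiag _), Finset.sum_diag]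
  rw [Finset.sum_involution (s := (univ : Finset ι).offDiag) (f := fun p => g p.1 p.2)
    (fun p _ => p.swap) (fun p _ => by simp [hg p.2 p.1, zmod2_add_self])
    (fun p hp _ h => (Finset.mem_offDiag.1 hp).2.2 (congrArg Prod.snd h))
    (fun p hp => by simpa [eq_comm] using hp) (fun p _ => rfl), add_zero]

theorem can_O_two (f : ℕ) (N : Matrix ι ι ℤ) (hN : N.IsSymm) (x : (ι × Fin f → ZMod 2) → V) :
    Set.range (act (O f (2 • N)) x) ⊆ Set.range x := by
  have e : ph f (2 • N) = chr fun p => (N p.1 p.1 : ZMod 2) := by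
    funext z
    rw [ph, chr, Fintype.sum_prod_type_right, sg_sum]
    refine Finset.prod_congr rfl fun c _ => ?_
    have e1 : qf (2 • N) (fun i => z (i, c)) = 2 * qf N (fun i => z (i, c)) := by
      simp only [qf, Matrix.smul_apply, Finset.mul_sum]
      refine Finset.sum_congr rfl fun i _ => Finset.sum_congr rfl fun j _ => by simp; ring
    rw [e1, I_zpow_two_mul, qf]
    push_cast
    simp only [ZMod.natCast_val, ZMod.cast_id', id]
    rw [sum_symm_zmod2 _ (fun i j => by rw [hN.apply i j]; ring)]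
    congr 1
    refine Finset.sum_congr rfl fun i _ => ?_
    rcases zmod2_cases (z (i, c)) with h | h <;> simp [h]
  rintro _ ⟨ω, rfl⟩
  exact ⟨_, by rw [O, e, act_Op_chr]⟩

theorem can_O_vv {f c : ℕ} (hc : MC (CK (Fin f)) c) (v : ι → ℤ)
    (x : (ι × Fin f → ZMod 2) → V) :
    Can (Set.range x) (2 ^ ((Fintype.card ι - 1) * f) * c)
      (Set.range (act (O f (vecMulVec v v)) x)) := by
  by_cases hv : ∀ i, (v i : ZMod 2) = 0
  · have : ph f (vecMulVec v v) = 1 := by
      funext z; simp [ph_vv, hv, sg_zero, cc_add]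
    rw [O, this, act_Op_one]
    exact Can.of_subset _ (Set.subset_insert _ _)
  push Not at hv
  obtain ⟨i0, hi0⟩ := hv
  have hi1 : (v i0 : ZMod 2) = 1 := (zmod2_cases _).resolve_left hi0
  let w : (Fin f → ZMod 2) → ι × Fin f → ZMod 2 := fun s p => (v p.1 : ZMod 2) * s p.2
  have e : ph f (vecMulVec v v) = fun z => ∑ s : Fin f → ZMod 2, (∏ c, cc (s c)) * chr (w s) z := by
    funext z
    rw [ph_vv]
    simp only [chr, w, Fintype.sum_prod_type_right, sg_sum (univ : Finset (Fin f)),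
      ← Finset.prod_mul_distrib]
    rw [← Fintype.prod_sum (fun c t => cc t * sg (∑ i, (v i : ZMod 2) * t * z (i, c)))]
    simp [sum_zmod2, sg_zero]
  have h := can_orbit (R := {i // i ≠ i0} × Fin f → ZMod 2) hc (fun s ω => w s + ω)
    (fun s t ω => by funext p; simp [w]; ring)
    (fun r p => if h : p.1 = i0 then 0 else r (⟨p.1, h⟩, p.2)) x
  refine h.mono (Set.subset_insert _ _) (le_of_eq ?_) ?_
  · simp [Fintype.card_subtype_compl]
  · rintro _ ⟨ω, rfl⟩
    refine Set.mem_iUnion.2 ⟨fun p => ω (p.1.1, p.2) + (v p.1.1 : ZMod 2) * ω (i0, p.2),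
      fun c => ω (i0, c), ?_⟩
    rw [O, e, act_Op_sum]
    refine Finset.sum_congr rfl fun s _ => ?_
    congr 3
    funext p
    by_cases hp : p.1 = i0
    · obtain ⟨i, c⟩ := p
      simp only at hp
      subst hp
      simp [w, hi1]
    · simp only [w, Pi.add_apply, hp, dif_neg, not_false_eq_true]
      rw [add_comm (ω _), ← add_assoc, zmod2_add_self, zero_add]

/-- Modulo two, `M` is a sum of at most `r` squares. -/
def Rk (M : Matrix ι ι ℤ) (r : ℕ) : Prop :=
  ∃ (J : Type) (_ : Fintype J) (v : J → ι → ℤ) (N : Matrix ι ι ℤ), Fintype.card J ≤ r ∧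
    N.IsSymm ∧ M = ∑ j, vecMulVec (v j) (v j) + 2 • N

/-- One pass costs at most `p`. -/
def Pass (ι : Type) [Fintype ι] [DecidableEq ι] (f p : ℕ) : Prop :=
  ∀ (W : Type) [AddCommGroup W] [Module ℂ W] (v : ι → ℤ) (x : (ι × Fin f → ZMod 2) → W),
    Can (Set.range x) p (Set.range (act (O f (vecMulVec v v)) x))

theorem Pass.move {f p r : ℕ} (hp : Pass ι f p) {M M' : Matrix ι ι ℤ} (h : Rk (M' - M) r)
    (u : (ι × Fin f → ZMod 2) → V) :
    Can (Set.range (act (O f M) u)) (r * p) (Set.range (act (O f M') u)) := by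
  classical
  obtain ⟨J, _, v, N, hJ, hN, h⟩ := h
  have key : ∀ (s : Finset J) (x : (ι × Fin f → ZMod 2) → V), Can (Set.range x) (s.card * p)
      (Set.range (act (O f (∑ j ∈ s, vecMulVec (v j) (v j))) x)) := by
    intro s x
    induction s using Finset.induction_on with
    | empty => simp only [sum_empty, act_O_zero]; exact Can.of_subset _ (Set.subset_insert _ _)
    | insert a s ha ih =>
      rw [sum_insert ha, act_O_add, card_insert_of_notMem ha, add_mul, one_mul]
      exact ih.trans' (hp V _ _)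
  have e : M' = 2 • N + (∑ j, vecMulVec (v j) (v j) + M) := by
    rw [← sub_add_cancel M' M, h]; abel
  rw [e, act_O_add, act_O_add]
  refine (key univ _).mono (Set.subset_insert _ _) ?_ (can_O_two f N hN _)
  exact Nat.mul_le_mul_right _ hJ

theorem Rk.mono {M : Matrix ι ι ℤ} {r r' : ℕ} (h : Rk M r) (hr : r ≤ r') : Rk M r' := by
  obtain ⟨J, _, v, N, hJ, hN, h⟩ := h
  exact ⟨J, _, v, N, hJ.trans hr, hN, h⟩

theorem isSymm_vv (v : ι → ℤ) : (vecMulVec v v).IsSymm := by
  ext i j; simp [vecMulVec_apply, mul_comm]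

theorem Rk.two (N : Matrix ι ι ℤ) (hN : N.IsSymm) : Rk (2 • N) 0 :=
  ⟨Empty, inferInstance, Empty.elim, N, by simp, hN, by simp⟩

theorem Rk.zero : Rk (0 : Matrix ι ι ℤ) 0 := by
  simpa using Rk.two (0 : Matrix ι ι ℤ) isSymm_zero

theorem Rk.vv (v : ι → ℤ) : Rk (vecMulVec v v) 1 :=
  ⟨Unit, inferInstance, fun _ => v, 0, by simp, isSymm_zero, by simp⟩

theorem Rk.add {M M' : Matrix ι ι ℤ} {r r' : ℕ} (h : Rk M r) (h' : Rk M' r') :
    Rk (M + M') (r + r') := by
  obtain ⟨J, _, v, N, hJ, hN, rfl⟩ := h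
  obtain ⟨J', _, v', N', hJ', hN', rfl⟩ := h'
  refine ⟨J ⊕ J', inferInstance, Sum.elim v v', N + N', by simp; omega, hN.add hN', ?_⟩
  simp only [Fintype.sum_sum_type, Sum.elim_inl, Sum.elim_inr, smul_add]; abel

theorem Rk.isSymm {M : Matrix ι ι ℤ} {r : ℕ} (h : Rk M r) : M.IsSymm := by
  obtain ⟨J, _, v, N, hJ, hN, rfl⟩ := h
  ext i j
  simp only [transpose_apply, Matrix.add_apply, Matrix.sum_apply, vecMulVec_apply,
    Matrix.smul_apply, hN.apply i j, mul_comm]

theorem Rk.neg {M : Matrix ι ι ℤ} {r : ℕ} (h : Rk M r) : Rk (-M) r := by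
  have := h.add (Rk.two (-M) h.isSymm.neg)
  rwa [show M + 2 • -M = -M by rw [two_smul]; abel] at this

theorem Rk.one : Rk (1 : Matrix ι ι ℤ) (Fintype.card ι) := by
  refine ⟨ι, inferInstance, fun j => Pi.single j 1, 0, le_rfl, isSymm_zero, ?_⟩
  ext i j
  simp [Matrix.sum_apply, vecMulVec_apply, Pi.single_apply, Matrix.one_apply]

open Kronecker in
theorem Rk.kron {ι' : Type} [Fintype ι'] [DecidableEq ι'] {M : Matrix ι ι ℤ} {M' : Matrix ι' ι' ℤ} {r r' : ℕ}
    (h : Rk M r) (h' : Rk M' r') : Rk (M ⊗ₖ M') (r * r') := by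
  have hs' := h'.isSymm
  obtain ⟨J, _, v, N, hJ, hN, rfl⟩ := h
  obtain ⟨J', _, v', N', hJ', hN', e'⟩ := h'
  refine ⟨J × J', inferInstance, fun j p => v j.1 p.1 * v' j.2 p.2,
    N ⊗ₖ M' + (∑ j, vecMulVec (v j) (v j)) ⊗ₖ N', by simpa using Nat.mul_le_mul hJ hJ', ?_, ?_⟩
  · ext p q
    simp [Matrix.sum_apply, vecMulVec_apply, hN.apply p.1 q.1, hs'.apply p.2 q.2,
      hN'.apply p.2 q.2, mul_comm]
  · ext p q
    have := congrFun (congrFun e' p.2) q.2
    simp only [Matrix.add_apply, Matrix.sum_apply, vecMulVec_apply, Matrix.smul_apply,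
      Fintype.sum_prod_type, kroneckerMap_apply] at this ⊢
    have e2 : ∑ x, ∑ y, v x p.1 * v' y p.2 * (v x q.1 * v' y q.2) =
        (∑ x, v x p.1 * v x q.1) * ∑ y, v' y p.2 * v' y q.2 := by
      rw [Finset.sum_mul_sum]
      exact Finset.sum_congr rfl fun _ _ => Finset.sum_congr rfl fun _ _ => by ring
    rw [e2, this]
    simp only [nsmul_eq_mul, Nat.cast_ofNat]
    ring

end Vale.Agent.P344
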