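import Vale.Agent.P344.Four

/-! In-place words for Fourier matrices using borrowed registers. -/

namespace Vale.Agent.P344

open Finset Matrix Kronecker Complex

set_option linter.unusedSectionVars false

variable {α : Type} [Fintype α] [DecidableEq α]

theorem exists_root (n : ℕ) (hn : n ≠ 0) : ∃ ζ : ℂ, IsPrimitiveRoot ζ n :=
  ⟨_, Complex.isPrimitiveRoot_exp n hn⟩

theorem exists_sqrt {ω : ℂ} (h : ω ≠ 0) : ∃ η : ℂ, η ≠ 0 ∧ η ^ 2 = ω := by
  obtain ⟨η, rfl⟩ := IsAlgClosed.exists_pow_nat_eq ω (n := 2) two_pos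
  exact ⟨η, fun h0 => h (by simp [h0]), rfl⟩

theorem word_sh_F {r s : ℕ} (hs : 2 * r ≤ 2 ^ s) {a b : Fin r → α} {u v : Fin (2 ^ s) → α}
    (ha : Function.Injective a) (hb : Function.Injective b) (hu : Function.Injective u)
    (hv : Function.Injective v) (hab : Dj a b) (hav : Dj a v) (hub : Dj u b)
    (hvb : Dj v b) (hvu : Dj v u) {ω : ℂ} (hω : ω ≠ 0) (c : ℂ) :
    Word (12 * s + 60) (sh a b (c • Fm r ω)) := by
  obtain ⟨η, h0, rfl⟩ := exists_sqrt hω
  obtain ⟨ζ, hζ⟩ := exists_root (2 ^ s) (by positivity)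
  have hn : r ≤ 2 ^ s := by omega
  obtain ⟨κ, hκ⟩ := blue hn h0 (Or.inl hs)
  obtain ⟨d, hd⟩ := circ_eq hζ κ
  have hF := word_fft s hζ
  have hF' := (word_fft s hζ.inv).smul ((2 ^ s : ℕ) : ℂ)⁻¹
  have hι := Fin.castLE_injective hn
  have s1 := word_sh_diag (hu.comp hι) hb (fun _ _ => hub _ _) fun j => η ^ ((j : ℕ) * j)
  have s3 := word_sh_diag ha (hv.comp hι) (fun _ _ => hav _ _) fun j => c * η ^ ((j : ℕ) * j)
  rw [sh, ← Pm_comp, Matrix.mul_assoc, ← Matrix.mul_assoc (Pm (Fin.castLE hn))] at s1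
  rw [sh, ← Pm_comp, transpose_mul, ← Matrix.mul_assoc (diagonal _)] at s3
  have := Word.sh_mul ha hv hab hav hvb (Word.sh_right hv hav (Fm_inv' hζ) hF hF' s3)
    (Word.sh_mul hv hu hvb hvu hub (word_sh_diag hv hu hvu d)
      (Word.sh_left hu hub (Fm_inv' hζ) hF hF' s1))
  refine Word.mono ?_ (show 2 * (6 + 2 * s) + 2 * (2 * 6 + 2 * (6 + 2 * s)) ≤ _ by omega)
  convert this using 2
  rw [hκ, smul_eq_diagonal_mul, ← diagonal_mul_diagonal,
    show (circulant κ).submatrix (Fin.castLE hn) (Fin.castLE hn) =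
      (Pm (Fin.castLE hn))ᵀ * (circulant κ * Pm (Fin.castLE hn)) by
        rw [tr_mul_Pm, mul_Pm]; rfl, hd]
  simp only [Matrix.mul_assoc]

theorem exists_chirp {r : ℕ} (hr : 0 < r) {ω : ℂ} (h : ω ^ r = 1) :
    ∃ η : ℂ, η ≠ 0 ∧ η ^ 2 = ω ∧ η ^ (2 * r) = 1 ∧ η ^ (r * r) = 1 := by
  have hω : ω ≠ 0 := by rintro rfl; simp [hr.ne'] at h
  rcases Nat.even_or_odd' r with ⟨k, rfl | rfl⟩
  · obtain ⟨η, h0, rfl⟩ := exists_sqrt hω
    refine ⟨η, h0, rfl, by rw [pow_mul, h], ?_⟩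
    rw [show 2 * k * (2 * k) = 2 * (2 * k) * k by ring, pow_mul, pow_mul, h, one_pow]
  · refine ⟨ω ^ (k + 1), pow_ne_zero _ hω, ?_, ?_, ?_⟩
    · rw [← pow_mul, show (k + 1) * 2 = 2 * k + 1 + 1 by ring, pow_succ, h, one_mul]
    · rw [← pow_mul, show (k + 1) * (2 * (2 * k + 1)) = (2 * k + 1) * (2 * (k + 1)) by ring,
        pow_mul, h, one_pow]
    · rw [← pow_mul, mul_comm, mul_assoc, pow_mul, h, one_pow]

theorem word_inplace {r s : ℕ} (hr : 0 < r) (hs : 2 * r ≤ 2 ^ s) {ω : ℂ}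
    (hω : IsPrimitiveRoot ω r) {a : Fin r → α} (ha : Function.Injective a)
    (hα : 2 * r + 2 * 2 ^ s ≤ Fintype.card α) : Word (72 * s + 360) (Em a (Fm r ω)) := by
  classical
  have : NeZero r := ⟨hr.ne'⟩
  obtain ⟨w⟩ : Nonempty (Fin r ⊕ Fin (2 ^ s) ⊕ Fin (2 ^ s) ↪ ((Set.range a)ᶜ : Set α)) :=
    Function.Embedding.nonempty_of_card_le (by
      rw [Fintype.card_compl_set, Set.card_range_of_injective ha]; simp; omega)
  have hw : Function.Injective fun x => (w x : α) := Subtype.val_injective.comp w.injective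
  have haw : ∀ x y, a x ≠ w y := fun x y h => (w y).2 ⟨x, h⟩
  let b : Fin r → α := fun x => w (.inl x)
  let u : Fin (2 ^ s) → α := fun x => w (.inr (.inl x))
  let v : Fin (2 ^ s) → α := fun x => w (.inr (.inr x))
  have hb : Function.Injective b := hw.comp Sum.inl_injective
  have hu : Function.Injective u := hw.comp (Sum.inr_injective.comp Sum.inl_injective)
  have hv : Function.Injective v := hw.comp (Sum.inr_injective.comp Sum.inr_injective)
  have hab : Dj a b := fun _ _ => haw _ _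
  have hvu : Dj v u := fun _ _ h => by simpa using hw h
  have h1 : ∀ {ω : ℂ}, ω ≠ 0 → ∀ c : ℂ, Word (12 * s + 60) (sh a b (c • Fm r ω)) :=
    word_sh_F hs ha hb hu hv hab (fun _ _ => haw _ _) (fun _ _ h => by simpa using hw h)
      (fun _ _ h => by simpa using hw h) hvu
  have h2 : ∀ {ω : ℂ}, ω ≠ 0 → ∀ c : ℂ, Word (12 * s + 60) (sh b a (c • Fm r ω)) :=
    word_sh_F hs hb ha hu hv hab.symm (fun _ _ h => by simpa using hw h)
      (fun _ _ => (haw _ _).symm) (fun _ _ => (haw _ _).symm) hvu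
  have h0 : ω ≠ 0 := hω.ne_zero hr.ne'
  obtain ⟨η, e0, e1, e2⟩ := exists_chirp hr hω.pow_eq_one
  obtain ⟨κ, hκ⟩ := blue le_rfl e0 (Or.inr e2)
  obtain ⟨d, hd⟩ := circ_eq hω κ
  have a1 := h1 (inv_ne_zero h0) (r : ℂ)⁻¹
  have a2 := h2 h0 1
  rw [one_smul] at a2
  have a3 := (((((a1.mul (a2.sh_neg hb hab.symm)).mul a1).mul ((Word.diag d).em hb)).mul
    (a1.sh_neg ha hab)).mul a2).mul (a1.sh_neg ha hab)
  rw [sh_white ha hb hab (Fm_inv' hω) (Fm_inv hω), ← hd] at a3
  have a4 := ((((Word.diag fun j : Fin r => η ^ ((j : ℕ) * j)).em ha).mul a3).mul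
    ((Word.diag fun j : Fin r => η ^ ((j : ℕ) * j)).em ha)).mono
    (D' := 72 * s + 360) (by omega)
  rw [Em_mul ha, Em_mul ha] at a4
  rw [← e1, hκ]
  exact a4

theorem word_copies_small {r D : ℕ} {F : Matrix (Fin r) (Fin r) ℂ} {γ : Type} [Fintype γ]
    [DecidableEq γ] (h : ∀ c : γ, Word D (Em (fun x => (x, c)) F)) :
    Word (Fintype.card γ * D) (F ⊗ₖ (1 : Matrix γ γ ℂ)) := by
  have key : ∀ S : Finset γ, Word (S.card * D)
      (blockDiagonal fun c => if c ∈ S then F else 1) := by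
    intro S
    induction S using Finset.induction_on with
    | empty =>
      have : (blockDiagonal fun c : γ => if c ∈ (∅ : Finset γ) then F else 1) = 1 := by
        rw [← blockDiagonal_one]; congr 1
      rw [this]; exact Word.mono (D := 0) IsMon.one (Nat.zero_le _)
    | insert c S hc ih =>
      have e : Em (fun x => (x, c)) F = blockDiagonal fun c' => if c' = c then F else 1 := by
        ext ⟨i, x⟩ ⟨j, y⟩
        rw [Em, sh_apply]
        by_cases h1 : x = c <;> by_cases h2 : y = c <;>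
          simp [blockDiagonal_apply, h1, h2, one_apply, ite_and, eq_comm (a := c)]
        split_ifs <;> rfl
      have := (h c).mul ih
      rw [e, ← blockDiagonal_mul] at this
      rw [card_insert_of_notMem hc, add_mul, one_mul, add_comm,
        show (fun c' => if c' ∈ insert c S then F else 1) = fun c' =>
          (if c' = c then F else 1) * if c' ∈ S then F else 1 from funext fun c' => by
            by_cases h1 : c' = c <;> simp [h1, hc]]
      exact this
  have : Word (Fintype.card γ * D) _ := key univ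
  convert this using 1
  ext ⟨i, x⟩ ⟨j, y⟩
  simp [blockDiagonal_apply, one_apply]

theorem word_copies {r D : ℕ} {F : Matrix (Fin r) (Fin r) ℂ}
    (h : ∀ m, 10 ≤ m → ∀ c : Fin m, Word D (Em (fun x => (x, c)) F)) (m : ℕ) (hm : 10 ≤ m) :
    Word (20 * D) (F ⊗ₖ (1 : Matrix (Fin m) (Fin m) ℂ)) := by
  have h1 : ∀ m, 10 ≤ m → m ≤ 20 → Word (20 * D) (F ⊗ₖ (1 : Matrix (Fin m) (Fin m) ℂ)) :=
    fun m h1 h2 => (word_copies_small (h m h1)).mono (by simp; gcongr)
  induction m using Nat.strong_induction_on with | _ m ih => ?_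
  by_cases h2 : m ≤ 20
  · exact h1 m hm h2
  obtain ⟨k, rfl⟩ : ∃ k, m = k + 10 := ⟨m - 10, by omega⟩
  let e : Fin r × Fin k ⊕ Fin r × Fin 10 ≃ Fin r × Fin (k + 10) :=
    (Equiv.prodSumDistrib _ _ _).symm.trans ((Equiv.refl _).prodCongr finSumFinEquiv)
  have := ((ih k (by omega) (by omega)).blocks (h1 10 le_rfl (by omega))).sub e.symm e.symm
  convert this using 1
  ext i j
  obtain ⟨i, rfl⟩ := e.surjective i
  obtain ⟨j, rfl⟩ := e.surjective j
  rw [submatrix_apply, Equiv.symm_apply_apply, Equiv.symm_apply_apply]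
  rcases i with ⟨i, x⟩ | ⟨i, x⟩ <;> rcases j with ⟨j, y⟩ | ⟨j, y⟩ <;>
    simp [e, one_apply, Fin.ext_iff] <;> omega

theorem word_sq {r : ℕ} (hr : 10 ≤ r) {ω : ℂ} (hω : IsPrimitiveRoot ω (r * r)) :
    Word (40 * (72 * (Nat.log 2 r + 2) + 360)) (Fm (r * r) ω) := by
  have h1 := Nat.lt_pow_succ_log_self one_lt_two r
  have h2 := Nat.pow_log_le_self 2 (show r ≠ 0 by omega)
  have h3 := word_copies (fun m hm c => word_inplace (s := Nat.log 2 r + 2) (by omega)
    (by rw [pow_succ] at h1; rw [pow_add]; omega) (hω.pow (by positivity) rfl)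
    (a := fun x => (x, c)) (fun _ _ h => (Prod.ext_iff.1 h).1)
    (by simp [pow_add]; nlinarith)) r hr
  have h4 := h3.sub (Equiv.prodComm _ _) (Equiv.prodComm _ _)
  refine (Word.cooley (D := 20 * (72 * (Nat.log 2 r + 2) + 360)) hω.pow_eq_one ?_ h3).mono
    (le_of_eq (by ring))
  convert h4 using 1
  ext ⟨i, x⟩ ⟨j, y⟩
  simp [mul_comm]

end Vale.Agent.P344
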