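import Vale.Agent.P344.Word

/-! Embedded matrices and shears between registers. -/

namespace Vale.Agent.P344

open Finset Matrix Kronecker Complex

set_option linter.unusedSectionVars false

variable {α β X Y U : Type} [Fintype α] [DecidableEq α] [Fintype β] [DecidableEq β]
  [Fintype X] [DecidableEq X] [Fintype Y] [DecidableEq Y] [Fintype U] [DecidableEq U]

/-- The matrix of an index map. -/
def Pm (a : X → α) : Matrix α X ℂ := (1 : Matrix α α ℂ).submatrix id a

/-- Disjoint registers. -/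
def Dj (a : X → α) (b : Y → α) : Prop := ∀ x y, a x ≠ b y

theorem Dj.symm {a : X → α} {b : Y → α} (h : Dj a b) : Dj b a := fun y x => (h x y).symm

theorem tr_mul_Pm (a : X → α) (M : Matrix α U ℂ) : (Pm a)ᵀ * M = M.submatrix a id := by
  ext i j; simp [Pm, Matrix.mul_apply, one_apply]

theorem mul_Pm (a : X → α) (M : Matrix U α ℂ) : M * Pm a = M.submatrix id a := by
  ext i j; simp [Pm, Matrix.mul_apply, one_apply]

theorem Pm_self {a : X → α} (ha : Function.Injective a) (M : Matrix X U ℂ) :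
    (Pm a)ᵀ * (Pm a * M) = M := by
  rw [← Matrix.mul_assoc, tr_mul_Pm]
  have : (Pm a).submatrix a id = 1 := by ext i j; simp [Pm, one_apply, ha.eq_iff]
  rw [this, Matrix.one_mul]

theorem Pm_dj {a : X → α} {b : Y → α} (h : Dj a b) (M : Matrix Y U ℂ) :
    (Pm a)ᵀ * (Pm b * M) = 0 := by
  rw [← Matrix.mul_assoc, tr_mul_Pm]
  have : (Pm b).submatrix a id = 0 := by ext i j; simp [Pm, one_apply, h i j]
  rw [this, Matrix.zero_mul]

theorem Pm_comp (a : X → α) (b : Y → X) : Pm a * Pm b = Pm (a ∘ b) := by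
  rw [mul_Pm]; rfl

/-- A shear from register `b` to register `a`. -/
noncomputable def sh (a : X → α) (b : Y → α) (N : Matrix X Y ℂ) : Matrix α α ℂ :=
  1 + Pm a * (N * (Pm b)ᵀ)

/-- A matrix acting on register `a`. -/
noncomputable def Em (a : X → α) (M : Matrix X X ℂ) : Matrix α α ℂ := sh a a (M - 1)

theorem sh_apply {a : X → α} {b : Y → α} (N : Matrix X Y ℂ) (i j : α) :
    sh a b N i j = (if i = j then 1 else 0) +
      ∑ x, ∑ y, if i = a x ∧ j = b y then N x y else 0 := by
  simp only [sh, Pm, Matrix.add_apply, Matrix.mul_apply, submatrix_apply, transpose_apply,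
    one_apply, id, Finset.mul_sum]
  congr 1
  refine sum_congr rfl fun x _ => sum_congr rfl fun y _ => ?_
  by_cases h1 : i = a x <;> by_cases h2 : j = b y <;> simp [h1, h2]

theorem Word.em {D : ℕ} {M : Matrix X X ℂ} (h : Word D M) {a : X → α}
    (ha : Function.Injective a) : Word D (Em a M) := by
  classical
  let g : X ⊕ ((Set.range a)ᶜ : Set α) ≃ α :=
    ((Equiv.ofInjective a ha).sumCongr (Equiv.refl _)).trans (Equiv.Set.sumCompl _)
  have h1 : ∀ x, g (.inl x) = a x := fun _ => rfl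
  have h2 : ∀ y x, g (.inr y) ≠ a x := fun y x h => y.2 ⟨x, h.symm⟩
  have := (h.blocks (Word.mono (IsMon.one (α := ((Set.range a)ᶜ : Set α))) (D := 0)
    (Nat.zero_le D))).sub g.symm g.symm
  convert this using 1
  ext i j
  obtain ⟨i, rfl⟩ := g.surjective i
  obtain ⟨j, rfl⟩ := g.surjective j
  rw [Em, sh_apply]
  simp only [g.injective.eq_iff, submatrix_apply, Equiv.symm_apply_apply]
  rcases i with i | i <;> rcases j with j | j <;>
    simp [h1, h2, ha.eq_iff, one_apply, ite_and]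

theorem Em_sh {e : β → α} (a : X → β) (b : Y → β) (N : Matrix X Y ℂ) :
    Em e (sh a b N) = sh (e ∘ a) (e ∘ b) N := by
  simp only [Em, sh, add_sub_cancel_left, ← Pm_comp, transpose_mul, Matrix.mul_assoc]

theorem Em_Em {e : β → α} (a : X → β) (N : Matrix X X ℂ) : Em e (Em a N) = Em (e ∘ a) N :=
  Em_sh _ _ _

section calc_lemmas

variable {a : X → α} {b : Y → α} {w : U → α}

theorem sh_add (h : Dj a b) (N N' : Matrix X Y ℂ) : sh a b N * sh a b N' = sh a b (N + N') := by
  simp [sh, Matrix.mul_add, Matrix.add_mul, Matrix.mul_assoc, Pm_dj h.symm]; abel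

theorem sh_conj_left (ha : Function.Injective a) (h : Dj a b) {M M' : Matrix X X ℂ}
    (hM : M * M' = 1) (N : Matrix X Y ℂ) : Em a M * sh a b N * Em a M' = sh a b (M * N) := by
  have hM' : ∀ Z : Matrix X α ℂ, M * (M' * Z) = Z := fun Z => by
    rw [← Matrix.mul_assoc, hM, Matrix.one_mul]
  simp [Em, sh, Matrix.mul_add, Matrix.add_mul, Matrix.mul_sub, Matrix.sub_mul, Matrix.mul_assoc,
    Pm_dj h.symm, Pm_self ha, hM']
  abel

theorem sh_conj_right (hb : Function.Injective b) (h : Dj a b) {M M' : Matrix Y Y ℂ}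
    (hM : M * M' = 1) (N : Matrix X Y ℂ) : Em b M * sh a b N * Em b M' = sh a b (N * M') := by
  have hM' : ∀ Z : Matrix Y α ℂ, M * (M' * Z) = Z := fun Z => by
    rw [← Matrix.mul_assoc, hM, Matrix.one_mul]
  simp [Em, sh, Matrix.mul_add, Matrix.add_mul, Matrix.mul_sub, Matrix.sub_mul, Matrix.mul_assoc,
    Pm_dj h.symm, Pm_self hb, hM']
  abel

theorem sh_comm (hw : Function.Injective w) (h : Dj a b) (h1 : Dj a w) (h2 : Dj w b)
    (N : Matrix X U ℂ) (N' : Matrix U Y ℂ) :
    sh a w N * sh w b N' * sh a w (-N) * sh w b (-N') = sh a b (N * N') := by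
  simp [sh, Matrix.mul_add, Matrix.add_mul, Matrix.mul_assoc,
    Pm_dj h.symm, Pm_dj h1.symm, Pm_dj h2.symm, Pm_self hw]
  abel

theorem sh_white {b : X → α} (ha : Function.Injective a) (hb : Function.Injective b) (h : Dj a b)
    {F F' : Matrix X X ℂ} (h1 : F * F' = 1) (h2 : F' * F = 1) (B : Matrix X X ℂ) :
    sh a b F' * sh b a (-F) * sh a b F' * Em b B * sh a b (-F') * sh b a F * sh a b (-F') =
      Em a (F' * B * F) := by
  have e1 : ∀ Z : Matrix X α ℂ, F * (F' * Z) = Z := fun Z => by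
    rw [← Matrix.mul_assoc, h1, Matrix.one_mul]
  have e2 : ∀ Z : Matrix X α ℂ, F' * (F * Z) = Z := fun Z => by
    rw [← Matrix.mul_assoc, h2, Matrix.one_mul]
  have w1 : sh a b F' * sh b a (-F) * sh a b F' = 1 - Pm a * (Pm a)ᵀ - Pm b * (Pm b)ᵀ +
      Pm a * (F' * (Pm b)ᵀ) - Pm b * (F * (Pm a)ᵀ) := by
    simp [sh, Matrix.mul_add, Matrix.add_mul, Matrix.mul_assoc,
      Pm_dj h.symm, Pm_self ha, Pm_self hb, e1, e2]
    abel
  have w2 : sh a b (-F') * sh b a F * sh a b (-F') = 1 - Pm a * (Pm a)ᵀ - Pm b * (Pm b)ᵀ -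
      Pm a * (F' * (Pm b)ᵀ) + Pm b * (F * (Pm a)ᵀ) := by
    simp [sh, Matrix.mul_add, Matrix.add_mul, Matrix.mul_assoc,
      Pm_dj h.symm, Pm_self ha, Pm_self hb, e1, e2]
    abel
  rw [Matrix.mul_assoc _ (sh a b (-F')), Matrix.mul_assoc _ _ (sh a b (-F')), w1, w2]
  simp [Em, sh, Matrix.mul_add, Matrix.add_mul, Matrix.mul_sub, Matrix.sub_mul, Matrix.mul_assoc,
    Pm_dj h.symm, Pm_dj h, Pm_self ha, Pm_self hb, e1, e2]
  abel

theorem Em_mul (ha : Function.Injective a) (M M' : Matrix X X ℂ) :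
    Em a M * Em a M' = Em a (M * M') := by
  simp [Em, sh, Matrix.mul_add, Matrix.add_mul, Matrix.mul_sub, Matrix.sub_mul, Matrix.mul_assoc,
    Pm_self ha]
  abel

theorem Word.sh_left {D D' : ℕ} (ha : Function.Injective a) (h : Dj a b) {M M' : Matrix X X ℂ}
    (hM : M * M' = 1) (h1 : Word D' M) (h2 : Word D' M') {N : Matrix X Y ℂ}
    (hN : Word D (sh a b N)) : Word (D + 2 * D') (sh a b (M * N)) := by
  rw [← sh_conj_left ha h hM]
  exact (((h1.em ha).mul hN).mul (h2.em ha)).mono (by omega)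

theorem Word.sh_right {D D' : ℕ} (hb : Function.Injective b) (h : Dj a b) {M M' : Matrix Y Y ℂ}
    (hM : M * M' = 1) (h1 : Word D' M) (h2 : Word D' M') {N : Matrix X Y ℂ}
    (hN : Word D (sh a b N)) : Word (D + 2 * D') (sh a b (N * M')) := by
  rw [← sh_conj_right hb h hM]
  exact (((h1.em hb).mul hN).mul (h2.em hb)).mono (by omega)

theorem Word.sh_neg {D : ℕ} (ha : Function.Injective a) (h : Dj a b) {N : Matrix X Y ℂ}
    (hN : Word D (sh a b N)) : Word D (sh a b (-N)) := by
  have h1 : Word 0 (-1 : Matrix X X ℂ) := by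
    simpa using Word.smul (D := 0) (IsMon.one (α := X)) (-1)
  simpa using Word.sh_left ha h (M := -1) (M' := -1) (by simp) h1 h1 hN

theorem Word.sh_mul {D D' : ℕ} (ha : Function.Injective a) (hw : Function.Injective w)
    (h : Dj a b) (h1 : Dj a w) (h2 : Dj w b) {N : Matrix X U ℂ} {N' : Matrix U Y ℂ}
    (hN : Word D (sh a w N)) (hN' : Word D' (sh w b N')) :
    Word (2 * D + 2 * D') (sh a b (N * N')) := by
  rw [← sh_comm hw h h1 h2]
  exact (((hN.mul hN').mul (hN.sh_neg ha h1)).mul (hN'.sh_neg hw h2)).mono (by omega)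

end calc_lemmas

theorem word_H : Word 1 (!![1, 1; 1, -1] : Matrix (Fin 2) (Fin 2) ℂ) := by
  refine ⟨diagonal ![1 - I, 1 + I], Cl Fin.rev, diagonal ![1, I], IsMon.diag _,
    ⟨_, Fin.rev_involutive, rfl⟩, IsMon.diag _, ?_⟩
  ext i j
  fin_cases i <;> fin_cases j <;>
    simp [Cl, cc, Fin.rev, Complex.ext_iff] <;> norm_num

theorem word_U : Word 3 (!![1, 5 / 3; 0, 1] : Matrix (Fin 2) (Fin 2) ℂ) := by
  have := (((((Word.diag ![1 / 3, 1 / 4]).mul word_H).mul (Word.diag ![3, 1])).mul word_H).mul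
    (Word.diag ![1, -1 / 2])).mul word_H
  convert this using 1
  ext i j
  fin_cases i <;> fin_cases j <;> simp [Matrix.mul_apply, Fin.sum_univ_two, diagonal_apply] <;>
    norm_num

theorem word_sh_diag {a b : X → α} (ha : Function.Injective a) (hb : Function.Injective b)
    (h : Dj a b) (d : X → ℂ) : Word 6 (sh a b (diagonal d)) := by
  have h1 : Word 3 (sh a b (diagonal fun _ => 5 / 3)) := by
    let e : Fin 2 × X → α := fun q => if q.1 = 0 then a q.2 else b q.2
    have he : Function.Injective e := by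
      rintro ⟨i, x⟩ ⟨j, y⟩ hh
      fin_cases i <;> fin_cases j <;> simp [e, ha.eq_iff, hb.eq_iff, h _ _, h.symm _ _] at hh ⊢ <;>
        exact hh
    have h2 := (word_U.kron_one (β := X)).em he
    have h3 : (!![1, 5 / 3; 0, 1] : Matrix (Fin 2) (Fin 2) ℂ) ⊗ₖ (1 : Matrix X X ℂ) =
        sh (fun x => (0, x)) (fun x => (1, x)) (diagonal fun _ => 5 / 3) := by
      ext ⟨i, x⟩ ⟨j, y⟩
      rw [sh_apply]
      fin_cases i <;> fin_cases j <;> simp [one_apply, diagonal_apply, ite_and]
    rwa [h3, Em_sh] at h2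
  have h2 : ∀ d : X → ℂ, (∀ x, d x ≠ 0) → Word 3 (sh a b (diagonal d)) := fun d hd => by
    have := Word.sh_left ha h (M := diagonal fun x => d x * (3 / 5))
      (M' := diagonal fun x => (d x * (3 / 5))⁻¹) (by
        rw [diagonal_mul_diagonal, ← diagonal_one]
        congr 1; funext x; exact mul_inv_cancel₀ (by simp [hd x])) (Word.diag _) (Word.diag _) h1
    rw [diagonal_mul_diagonal] at this
    rwa [show (fun x => d x * (3 / 5) * (5 / 3)) = d from funext fun x => by ring] at this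
  have h3 := (h2 (fun x => if d x = 1 then -1 else 1) fun x => by split_ifs <;> simp).mul
    (h2 (fun x => d x - if d x = 1 then -1 else 1) fun x => by
      split_ifs with hx
      · rw [hx]; norm_num
      · exact sub_ne_zero.2 hx)
  rw [sh_add h, diagonal_add] at h3
  simpa using h3

end Vale.Agent.P344
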