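import Vale.Agent.P344.Bound

/-! Words of monomial matrices and layers; the tensor lemma. -/

namespace Vale.Agent.P344

open Finset Matrix Kronecker

set_option linter.unusedSectionVars false

variable {α β : Type} [Fintype α] [DecidableEq α] [Fintype β] [DecidableEq β]

theorem IsMon.mul {M N : Matrix α α ℂ} (h : IsMon M) (h' : IsMon N) : IsMon (M * N) := by
  obtain ⟨d, σ, h⟩ := h
  obtain ⟨d', σ', h'⟩ := h'
  refine ⟨fun i => d i * d' (σ i), fun i => σ' (σ i), fun i j => ?_⟩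
  simp only [Matrix.mul_apply, h, ite_mul, zero_mul, sum_ite_eq', mem_univ, if_true]
  simp [h']

theorem IsMon.diag (d : α → ℂ) : IsMon (diagonal d) :=
  ⟨d, id, fun i j => by simp [diagonal_apply, eq_comm]⟩

theorem IsMon.one : IsMon (1 : Matrix α α ℂ) := IsMon.diag _

theorem IsMon.kron {M : Matrix α α ℂ} {N : Matrix β β ℂ} (h : IsMon M) (h' : IsMon N) :
    IsMon (M ⊗ₖ N) := by
  obtain ⟨d, σ, h⟩ := h
  obtain ⟨d', σ', h'⟩ := h'
  refine ⟨fun i => d i.1 * d' i.2, Prod.map σ σ', fun i j => ?_⟩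
  simp only [kroneckerMap_apply, h, h', Prod.ext_iff, Prod.map_fst, Prod.map_snd]
  split_ifs <;> simp_all

theorem IsMon.blocks {M : Matrix α α ℂ} {N : Matrix β β ℂ} (h : IsMon M) (h' : IsMon N) :
    IsMon (fromBlocks M 0 0 N) := by
  obtain ⟨d, σ, h⟩ := h
  obtain ⟨d', σ', h'⟩ := h'
  refine ⟨Sum.elim d d', Sum.map σ σ', ?_⟩
  rintro (i | i) (j | j) <;> simp [h, h']

theorem IsMon.sub {M : Matrix α α ℂ} (h : IsMon M) (a : β → α) (e : β ≃ α) :
    IsMon (M.submatrix a e) := by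
  obtain ⟨d, σ, h⟩ := h
  exact ⟨d ∘ a, fun i => e.symm (σ (a i)), fun i j => by simp [h, Equiv.eq_symm_apply]⟩

/-- Words of depth `D` with layers from the class `P`. -/
def Wd (P : Matrix α α ℂ → Prop) : ℕ → Matrix α α ℂ → Prop
  | 0, M => IsMon M
  | D + 1, M => ∃ A B M', IsMon A ∧ P B ∧ Wd P D M' ∧ M = A * B * M'

variable {P : Matrix α α ℂ → Prop}

theorem Wd.mon_mul {D : ℕ} {A M : Matrix α α ℂ} (hA : IsMon A) (h : Wd P D M) :
    Wd P D (A * M) := by
  cases D with
  | zero => exact hA.mul h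
  | succ D =>
    obtain ⟨A', B, M', h1, h2, h3, rfl⟩ := h
    exact ⟨A * A', B, M', hA.mul h1, h2, h3, by simp only [Matrix.mul_assoc]⟩

theorem Wd.mul {D D' : ℕ} {N : Matrix α α ℂ} (h' : Wd P D' N) :
    ∀ {M : Matrix α α ℂ}, Wd P D M → Wd P (D + D') (M * N) := by
  induction D with
  | zero => intro M h; rw [zero_add]; exact h'.mon_mul h
  | succ D ih =>
    rintro M ⟨A, B, M', h1, h2, h3, rfl⟩
    rw [Nat.add_right_comm]
    exact ⟨A, B, M' * N, h1, h2, ih h3, by simp only [Matrix.mul_assoc]⟩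

theorem Wd.mono (h1 : P 1) {D D' : ℕ} {M : Matrix α α ℂ} (h : Wd P D M) (hD : D ≤ D') :
    Wd P D' M := by
  induction hD with
  | refl => exact h
  | step _ ih => exact ⟨1, 1, M, IsMon.one, h1, ih, by simp⟩

theorem Wd.map {Q : Matrix β β ℂ → Prop} (φ : Matrix α α ℂ → Matrix β β ℂ)
    (hm : ∀ M N, φ (M * N) = φ M * φ N) (h0 : ∀ M, IsMon M → IsMon (φ M))
    (h1 : ∀ M, P M → Q (φ M)) {D : ℕ} : ∀ {M}, Wd P D M → Wd Q D (φ M) := by
  induction D with
  | zero => exact fun h => h0 _ h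
  | succ D ih =>
    rintro M ⟨A, B, M', a1, a2, a3, rfl⟩
    exact ⟨φ A, φ B, φ M', h0 _ a1, h1 _ a2, ih a3, by rw [hm, hm]⟩

theorem Wd.map2 {γ : Type} [Fintype γ] [DecidableEq γ] {Q : Matrix β β ℂ → Prop}
    {R : Matrix γ γ ℂ → Prop} (φ : Matrix α α ℂ → Matrix β β ℂ → Matrix γ γ ℂ)
    (hm : ∀ M N M' N', φ (M * N) (M' * N') = φ M M' * φ N N')
    (h0 : ∀ M M', IsMon M → IsMon M' → IsMon (φ M M'))
    (h1 : ∀ M M', P M → Q M' → R (φ M M')) {D : ℕ} :
    ∀ {M M'}, Wd P D M → Wd Q D M' → Wd R D (φ M M') := by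
  induction D with
  | zero => exact fun h h' => h0 _ _ h h'
  | succ D ih =>
    rintro M N ⟨A, B, M', a1, a2, a3, rfl⟩ ⟨A', B', N', b1, b2, b3, rfl⟩
    exact ⟨φ A A', φ B B', φ M' N', h0 _ _ a1 b1, h1 _ _ a2 b2, ih a3 b3, by rw [hm, hm]⟩

theorem Wd.mc {c : ℕ} (hP : ∀ B, P B → MC B c) {D : ℕ} :
    ∀ {M}, Wd P D M → MC M ((D + 1) * Fintype.card α + D * c) := by
  induction D with
  | zero => intro M h; simpa using IsMon.mc h
  | succ D ih =>
    rintro M ⟨A, B, M', a1, a2, a3, rfl⟩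
    exact ((a1.mc.mul (hP _ a2)).mul (ih a3)).monoC (le_of_eq (by ring))

theorem Wd.sub {Q : Matrix β β ℂ → Prop} (e : β ≃ α) (h1 : ∀ M, P M → Q (M.submatrix e e))
    {D : ℕ} {M : Matrix α α ℂ} (h : Wd P D M) (a : β → α) : Wd Q D (M.submatrix a e) := by
  have h2 := Wd.map (Q := Q) (fun M => M.submatrix e e)
    (fun M N => (submatrix_mul_equiv M N e e e).symm) (fun M h => h.sub e e) h1 h
  have := Wd.mon_mul (IsMon.one.sub a e) h2
  rwa [submatrix_mul_equiv, Matrix.one_mul] at this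

/-- The layer of an involution. -/
noncomputable def Cl (π : α → α) : Matrix α α ℂ :=
  fun i j => (if j = i then cc 0 else 0) + if j = π i then cc 1 else 0

/-- Single layers. -/
def IsL (B : Matrix α α ℂ) : Prop := ∃ π : α → α, Function.Involutive π ∧ B = Cl π

theorem IsL.one : IsL (1 : Matrix α α ℂ) := by
  refine ⟨id, fun _ => rfl, ?_⟩
  ext i j
  simp only [Cl, one_apply, id, eq_comm (a := j)]
  split_ifs <;> simp [cc_add]

/-- Words of single layers. -/
abbrev Word (D : ℕ) (M : Matrix α α ℂ) : Prop := Wd IsL D M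

theorem Word.mono {D D' : ℕ} {M : Matrix α α ℂ} (h : Word D M) (hD : D ≤ D') : Word D' M :=
  Wd.mono IsL.one h hD

theorem Word.mul {D D' : ℕ} {M N : Matrix α α ℂ} (h : Word D M) (h' : Word D' N) :
    Word (D + D') (M * N) := Wd.mul h' h

theorem Word.diag (d : α → ℂ) : Word 0 (diagonal d) := IsMon.diag d

theorem Word.smul {D : ℕ} {M : Matrix α α ℂ} (h : Word D M) (c : ℂ) : Word D (c • M) := by
  rw [smul_eq_diagonal_mul]; exact Wd.mon_mul (IsMon.diag _) h

theorem Word.sub {D : ℕ} {M : Matrix α α ℂ} (h : Word D M) (a : β → α) (e : β ≃ α) :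
    Word D (M.submatrix a e) := by
  refine Wd.sub e ?_ h a
  rintro _ ⟨π, hπ, rfl⟩
  refine ⟨fun i => e.symm (π (e i)), fun i => by simp [hπ (e i)], ?_⟩
  ext i j
  simp [Cl, Equiv.eq_symm_apply]

theorem Word.blocks {D : ℕ} {M : Matrix α α ℂ} {N : Matrix β β ℂ} (h : Word D M)
    (h' : Word D N) : Word D (fromBlocks M 0 0 N) := by
  refine Wd.map2 (fun M N => fromBlocks M 0 0 N) (fun _ _ _ _ => by simp [fromBlocks_multiply])
    (fun _ _ => IsMon.blocks) ?_ h h'
  rintro _ _ ⟨π, hπ, rfl⟩ ⟨π', hπ', rfl⟩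
  refine ⟨Sum.map π π', by rintro (i | i) <;> simp [hπ _, hπ' _], ?_⟩
  ext (i | i) (j | j) <;> simp [Cl]

theorem Word.kron_one {D : ℕ} {M : Matrix α α ℂ} (h : Word D M) :
    Word D (M ⊗ₖ (1 : Matrix β β ℂ)) := by
  refine Wd.map (fun M => M ⊗ₖ (1 : Matrix β β ℂ))
    (fun _ _ => by rw [← mul_kronecker_mul, Matrix.one_mul]) (fun _ h => h.kron IsMon.one) ?_ h
  rintro _ ⟨π, hπ, rfl⟩
  refine ⟨Prod.map π id, hπ.prodMap fun _ => rfl, ?_⟩
  ext ⟨i, x⟩ ⟨j, y⟩
  by_cases hxy : x = y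
  · simp [Cl, hxy]
  · simp [Cl, hxy, Ne.symm hxy]

theorem Word.one_kron {D : ℕ} {M : Matrix α α ℂ} (h : Word D M) :
    Word D ((1 : Matrix β β ℂ) ⊗ₖ M) := by
  have := (h.kron_one (β := β)).sub (Equiv.prodComm β α) (Equiv.prodComm β α)
  convert this using 1
  ext ⟨i, x⟩ ⟨j, y⟩
  simp [mul_comm]

/-- Multi-layers that are cheap also after tensoring with further cube factors. -/
def Good (t K k : ℕ) (B : Matrix β β ℂ) : Prop :=
  ∀ (κ : Type) [Fintype κ] [DecidableEq κ], Fintype.card κ + k ≤ K →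
    MC (CK κ ⊗ₖ B) (t * 2 ^ Fintype.card κ * Fintype.card β)

theorem Good.sub {t K k : ℕ} {B : Matrix β β ℂ} (h : Good t K k B) (e : α ≃ β) :
    Good t K k (B.submatrix e e) := by
  intro κ _ _ hk
  rw [Fintype.card_congr e]
  exact (h κ hk).submatrix ((Equiv.refl _).prodCongr e) ((Equiv.refl _).prodCongr e)

theorem Good.mc {t K k : ℕ} {B : Matrix β β ℂ} (h : Good t K k B) (hk : k ≤ K) :
    MC B (t * Fintype.card β) := by
  have := (h Empty (by simpa using hk)).submatrix (Equiv.uniqueProd β _).symm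
    (Equiv.uniqueProd β _).symm
  convert this using 1
  · ext i j; simp [CK]
  · simp

theorem card_invol (π : α → α) (hπ : Function.Involutive π) (n : α → ℕ)
    (hn : Function.Injective n) :
    ∑ a ∈ univ.filter (fun a => n a ≤ n (π a)), (if π a = a then 1 else 2) = Fintype.card α := by
  have h1 : ∑ a ∈ univ.filter (fun a => ¬ n a ≤ n (π a)), 1 =
      ∑ a ∈ univ.filter (fun a => n a ≤ n (π a)), (if π a = a then 0 else 1) := by
    rw [sum_filter, sum_filter, ← Equiv.sum_comp hπ.toPerm]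
    refine sum_congr rfl fun a _ => ?_
    simp only [Function.Involutive.coe_toPerm, hπ a]
    by_cases h : π a = a
    · simp [h]
    · have : n (π a) ≠ n a := fun h' => h (hn h')
      simp only [h, if_false]
      split_ifs <;> omega
  rw [← card_univ, card_eq_sum_ones, ← sum_filter_add_sum_filter_not univ
    (fun a => n a ≤ n (π a)), h1, ← sum_add_distrib]
  exact sum_congr rfl fun a _ => by split_ifs <;> rfl

theorem Good.step {t K k : ℕ} {B : Matrix β β ℂ} (h : Good t K k B) {C : Matrix α α ℂ}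
    (hC : IsL C) : Good t K (k + 1) (C ⊗ₖ B) := by
  obtain ⟨π, hπ, rfl⟩ := hC
  intro κ _ _ hk W _ _ x
  let n : α → ℕ := fun a => Fintype.equivFin α a
  have hn : Function.Injective n := fun a b h => (Fintype.equivFin α).injective (Fin.ext h)
  have hact : ∀ s a b, act (CK κ ⊗ₖ (Cl π ⊗ₖ B)) x (s, a, b) =
      cc 0 • act (CK κ ⊗ₖ B) (fun q => x (q.1, a, q.2)) (s, b) +
      cc 1 • act (CK κ ⊗ₖ B) (fun q => x (q.1, π a, q.2)) (s, b) := by
    intro s a b
    simp only [act, Fintype.sum_prod_type, kroneckerMap_apply, Cl, Finset.smul_sum, smul_smul,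
      ← sum_add_distrib]
    refine sum_congr rfl fun s' _ => ?_
    rw [sum_comm]
    refine sum_congr rfl fun b' _ => ?_
    simp only [add_mul, mul_add, add_smul, sum_add_distrib, ite_mul, zero_mul, mul_ite, mul_zero,
      ite_smul, zero_smul, sum_ite_eq', mem_univ, if_true]
    congr 2 <;> ring
  have key := Can.biUnion (univ.filter (fun a => n a ≤ n (π a))) (S := Set.range x)
    (Q := fun a => {v | ∃ s b, v = act (CK κ ⊗ₖ (Cl π ⊗ₖ B)) x (s, a, b) ∨
      v = act (CK κ ⊗ₖ (Cl π ⊗ₖ B)) x (s, π a, b)})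
    (c := fun a => (if π a = a then 1 else 2) * (t * 2 ^ Fintype.card κ * Fintype.card β))
    fun a _ => by
      split_ifs with ha
      · refine (h κ (by omega) W fun q => x (q.1, a, q.2)).mono ?_ (by simp) ?_
        · rintro _ ⟨q, rfl⟩; exact Or.inr ⟨_, rfl⟩
        · rintro _ ⟨s, b, rfl | rfl⟩ <;>
            exact ⟨(s, b), by simp only [hact, ha, ← add_smul, cc_add, one_smul]⟩
      · refine (h (Option κ) (by simp; omega) W fun q =>
          x (fun i => q.1 (some i), if q.1 none = 0 then a else π a, q.2)).mono ?_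
          (by simp [pow_succ]; ring_nf; rfl) ?_
        · rintro _ ⟨q, rfl⟩; exact Or.inr ⟨_, rfl⟩
        · have e : ∀ (u : ZMod 2) (s : κ → ZMod 2) b, act (CK (Option κ) ⊗ₖ B) (fun q =>
              x (fun i => q.1 (some i), if q.1 none = 0 then a else π a, q.2))
              (fun o => o.elim u s, b) =
              cc u • act (CK κ ⊗ₖ B) (fun q => x (q.1, a, q.2)) (s, b) +
              cc (u + 1) • act (CK κ ⊗ₖ B) (fun q => x (q.1, π a, q.2)) (s, b) := by
            intro u s b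
            simp only [act, Fintype.sum_prod_type, kroneckerMap_apply, Finset.smul_sum, smul_smul]
            rw [← (Equiv.piOptionEquivProd (β := fun _ : Option κ => ZMod 2)).symm.sum_comp,
              Fintype.sum_prod_type, sum_zmod2]
            simp [CK, Equiv.piOptionEquivProd, mul_assoc]
          rintro _ ⟨s, b, rfl | rfl⟩
          · exact ⟨(fun o => o.elim 0 s, b), by rw [e, hact, zero_add]⟩
          · exact ⟨(fun o => o.elim 1 s, b), by
              rw [e, hact, hπ a, zmod2_add_self, add_comm]⟩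
  rw [← sum_mul, card_invol π hπ n hn] at key
  refine key.mono (Set.subset_insert _ _) (le_of_eq (by simp; ring)) ?_
  rintro _ ⟨⟨s, a, b⟩, rfl⟩
  simp only [Set.mem_iUnion]
  by_cases ha : n a ≤ n (π a)
  · exact ⟨a, by simpa using ha, s, b, Or.inl rfl⟩
  · exact ⟨π a, by simp [hπ a]; omega, s, b, Or.inr (by rw [hπ a])⟩

theorem Word.tensor {t K k D : ℕ} {M : Matrix α α ℂ} {N : Matrix β β ℂ} (h : Word D M)
    (h' : Wd (Good t K k) D N) : Wd (Good t K (k + 1)) D (M ⊗ₖ N) :=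
  Wd.map2 (fun M N => M ⊗ₖ N) (fun _ _ _ _ => mul_kronecker_mul _ _ _ _) (fun _ _ => IsMon.kron)
    (fun _ _ a b => b.step a) h h'

end Vale.Agent.P344
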